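import Vale.Agent.P146.H478.Pl
import Vale.Agent.P146.H425.Gauss

/-!
# Brascamp-Lieb for linear forms (helper186)

`U` Lipschitz and concave. Under the law `exp U dγ / ∫ exp U dγ` a linear form `ℓ = v · z` with the
mean `c` satisfies `E exp (t (ℓ - c)) ≤ exp (t² |v|² / 2)`, hence `Var ℓ ≤ |v|²` and
`E (ℓ - c)⁴ ≤ 12 |v|⁴`.
-/

open MeasureTheory ProbabilityTheory Filter Topology

namespace Vale.Agent.P146.H186

open Vale.Agent.P157.Lv

variable {ι : Type} [Fintype ι] {U : (ι → ℝ) → ℝ}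

/-- linear form -/
noncomputable def lf (v z : ι → ℝ) : ℝ := ∑ e, v e * z e

/-- squared norm -/
noncomputable def nq (v : ι → ℝ) : ℝ := ∑ e, v e ^ 2

/-- concave functions -/
def Cc (U : (ι → ℝ) → ℝ) : Prop := ∀ (p q : ℝ), 0 ≤ p → 0 ≤ q → p + q = 1 →
  ∀ x y, p * U x + q * U y ≤ U (p • x + q • y)

/-- the mean of a function under the law `exp U` -/
noncomputable def mU (U : (ι → ℝ) → ℝ) (f : (ι → ℝ) → ℝ) : ℝ :=
  (∫ z, Real.exp (U z) * f z ∂(gI ι)) / ∫ z, Real.exp (U z) ∂(gI ι)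

lemma nq_nonneg (v : ι → ℝ) : 0 ≤ nq v := Finset.sum_nonneg fun _ _ => sq_nonneg _

lemma lf_neg (v z : ι → ℝ) : lf (-v) z = -lf v z := by
  unfold lf
  rw [← Finset.sum_neg_distrib]
  exact Finset.sum_congr rfl fun i _ => by simp

lemma nq_neg (v : ι → ℝ) : nq (-v) = nq v := by
  unfold nq
  exact Finset.sum_congr rfl fun i _ => by simp

lemma lip_lf (v : ι → ℝ) : Lip (lf v) :=
  Lip.sum _ fun e _ => (Lip.coord e).const_mul _

lemma eg_lf (v : ι → ℝ) : EG (lf v) := (lip_lf v).eg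

lemma eg_exp (hU : Lip U) : EG fun z => Real.exp (U z) := by
  have := hU.exp_eg 1
  simpa only [one_mul] using this

lemma int_pos (hU : Lip U) : 0 < ∫ z, Real.exp (U z) ∂(gI ι) :=
  integral_exp_pos (eg_exp hU).integrable

lemma eg_exp_lf (v : ι → ℝ) (t : ℝ) : EG fun z => Real.exp (t * lf v z) := (lip_lf v).exp_eg t

/-- Cameron-Martin -/
lemma int_shift (U : (ι → ℝ) → ℝ) (v : ι → ℝ) (t : ℝ) :
    ∫ z, Real.exp (U z + t * lf v z) ∂(gI ι) =
      Real.exp (t ^ 2 * nq v / 2) * ∫ z, Real.exp (U (z + t • v)) ∂(gI ι) := by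
  rw [H425.gI_shift (t • v), ← integral_const_mul]
  refine integral_congr_ae (Filter.Eventually.of_forall fun z => ?_)
  simp only
  rw [← Real.exp_add, ← Real.exp_add]
  congr 1
  have e1 : lf v (z + t • v) = lf v z + t * nq v := by
    unfold lf nq
    rw [Finset.mul_sum, ← Finset.sum_add_distrib]
    refine Finset.sum_congr rfl fun i _ => ?_
    simp only [Pi.add_apply, Pi.smul_apply, smul_eq_mul]
    ring
  have e2 : ∑ i, (t • v) i * z i = t * lf v z := by
    unfold lf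
    rw [Finset.mul_sum]
    refine Finset.sum_congr rfl fun i _ => ?_
    simp only [Pi.smul_apply, smul_eq_mul]
    ring
  have e3 : ∑ i, (t • v) i ^ 2 = t ^ 2 * nq v := by
    unfold nq
    rw [Finset.mul_sum]
    refine Finset.sum_congr rfl fun i _ => ?_
    simp only [Pi.smul_apply, smul_eq_mul]
    ring
  rw [e1, e2, e3]
  ring

lemma lip_shift (hU : Lip U) (v : ι → ℝ) : Lip fun z => U (z + v) := by
  obtain ⟨L, hL, h⟩ := hU
  refine ⟨L, hL, fun y y' => (h _ _).trans (le_of_eq ?_)⟩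
  congr 2
  abel

/-- the integral `G t = ∫ exp U (z + t v)` is log-concave -/
lemma conc_G (hU : Lip U) (hc : Cc U) (v : ι → ℝ) {s t : ℝ} (hs : 0 < s) (ht : 0 < t) :
    s * Real.log (∫ z, Real.exp (U (z + t • v)) ∂(gI ι)) +
      t * Real.log (∫ z, Real.exp (U (z + (-s) • v)) ∂(gI ι)) ≤
      (s + t) * Real.log (∫ z, Real.exp (U z) ∂(gI ι)) := by
  classical
  have hst : 0 < s + t := by linarith
  have p1 := int_pos (lip_shift hU (t • v))
  have p2 := int_pos (lip_shift hU ((-s) • v))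
  have p3 := int_pos hU
  have key := H478.pl_real (U0 := fun z => U (z + t • v)) (U1 := fun z => U (z + (-s) • v))
    (U2 := U) (s := s / (s + t)) (t := t / (s + t)) (eg_exp (lip_shift hU (t • v)))
    (eg_exp (lip_shift hU ((-s) • v))) (eg_exp hU) (by positivity) (by positivity)
    (by field_simp) (fun x y => by
      have h := hc (s / (s + t)) (t / (s + t)) (by positivity) (by positivity) (by field_simp)
        (x + t • v) (y + (-s) • v)
      refine h.trans (le_of_eq ?_)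
      congr 1
      funext i
      simp only [Pi.add_apply, Pi.smul_apply, smul_eq_mul]
      field_simp
      ring)
  have h1 := Real.log_le_log (by positivity) key
  rw [Real.log_mul (by positivity) (by positivity), Real.log_rpow p1, Real.log_rpow p2] at h1
  have h2 := mul_le_mul_of_nonneg_left h1 hst.le
  have e : (s + t) * (s / (s + t) * Real.log (∫ z, Real.exp (U (z + t • v)) ∂(gI ι)) +
      t / (s + t) * Real.log (∫ z, Real.exp (U (z + (-s) • v)) ∂(gI ι))) =
      s * Real.log (∫ z, Real.exp (U (z + t • v)) ∂(gI ι)) +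
      t * Real.log (∫ z, Real.exp (U (z + (-s) • v)) ∂(gI ι)) := by
    field_simp
  rw [e] at h2
  exact h2

/-- **the exponential moment, one side** -/
lemma mgf_pos (hU : Lip U) (hc : Cc U) (v : ι → ℝ) {t : ℝ} (ht : 0 < t) :
    ∫ z, Real.exp (U z + t * lf v z) ∂(gI ι) ≤
      Real.exp (t * mU U (lf v) + t ^ 2 * nq v / 2) * ∫ z, Real.exp (U z) ∂(gI ι) := by
  obtain ⟨M0, hM0⟩ : ∃ M0, M0 = ∫ z, Real.exp (U z) ∂(gI ι) := ⟨_, rfl⟩
  obtain ⟨c, hcc⟩ : ∃ c, c = mU U (lf v) := ⟨_, rfl⟩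
  have hM : 0 < M0 := by rw [hM0]; exact int_pos hU
  have p1 := int_pos (lip_shift hU (t • v))
  -- the bound for every `s`
  have h1 : ∀ s : ℝ, 0 < s → Real.log (∫ z, Real.exp (U (z + t • v)) ∂(gI ι)) ≤
      Real.log M0 + t * c + t * nq v / 2 * s := by
    intro s hs
    have p2 := int_pos (lip_shift hU ((-s) • v))
    have h2 := conc_G hU hc v hs ht
    have h3 := H425.jensen_tilt (q := fun z => Real.exp (U z)) (t := fun z => (-s) * lf v z)
      (eg_exp hU) (fun z => (Real.exp_pos _).le) (int_pos hU) ((eg_lf v).const_mul _)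
      ((eg_exp hU).mul (eg_exp_lf v (-s)))
    have e1 : (∫ z, Real.exp (U z) * ((-s) * lf v z) ∂(gI ι)) =
        (-s) * ∫ z, Real.exp (U z) * lf v z ∂(gI ι) := by
      rw [← integral_const_mul]
      refine integral_congr_ae (Filter.Eventually.of_forall fun z => ?_)
      simp only
      ring
    have e2 : (∫ z, Real.exp (U z) * Real.exp ((-s) * lf v z) ∂(gI ι)) =
        Real.exp (s ^ 2 * nq v / 2) * ∫ z, Real.exp (U (z + (-s) • v)) ∂(gI ι) := by
      have := int_shift U v (-s)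
      rw [neg_sq] at this
      rw [← this]
      refine integral_congr_ae (Filter.Eventually.of_forall fun z => ?_)
      simp only
      rw [Real.exp_add]
    rw [e1, e2, mul_div_assoc] at h3
    have e3 : (∫ z, Real.exp (U z) * lf v z ∂(gI ι)) / ∫ z, Real.exp (U z) ∂(gI ι) = c := by
      rw [hcc]; rfl
    rw [e3, ← hM0] at h3
    have h4 := Real.log_le_log (by positivity) h3
    rw [Real.log_mul hM.ne' (Real.exp_pos _).ne', Real.log_exp,
      Real.log_mul (Real.exp_pos _).ne' p2.ne', Real.log_exp] at h4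
    rw [← hM0] at h2
    have h5 := mul_le_mul_of_nonneg_left h4 ht.le
    have h6 : s * Real.log (∫ z, Real.exp (U (z + t • v)) ∂(gI ι)) ≤
        s * (Real.log M0 + t * c + t * nq v / 2 * s) := by nlinarith
    exact le_of_mul_le_mul_left h6 hs
  have h2 : Real.log (∫ z, Real.exp (U (z + t • v)) ∂(gI ι)) ≤ Real.log M0 + t * c := by
    refine le_of_forall_pos_le_add fun ε hε => ?_
    have hk : 0 ≤ t * nq v / 2 := by have := nq_nonneg v; positivity
    have h3 := h1 (ε / (t * nq v / 2 + 1)) (by positivity)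
    refine h3.trans ?_
    have h4 : t * nq v / 2 * (ε / (t * nq v / 2 + 1)) ≤ ε := by
      rw [mul_div_assoc', div_le_iff₀ (by positivity)]
      nlinarith
    linarith
  rw [int_shift, ← hM0, ← hcc, Real.exp_add, mul_comm (Real.exp (t * c)), mul_assoc]
  refine mul_le_mul_of_nonneg_left ?_ (Real.exp_pos _).le
  have h3 := (Real.log_le_iff_le_exp p1).1 h2
  rw [Real.exp_add, Real.exp_log hM] at h3
  rw [mul_comm (Real.exp (t * c))]
  exact h3

lemma mU_neg (U : (ι → ℝ) → ℝ) (v : ι → ℝ) : mU U (lf (-v)) = -mU U (lf v) := by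
  unfold mU
  rw [← neg_div, ← integral_neg]
  congr 1
  refine integral_congr_ae (Filter.Eventually.of_forall fun z => ?_)
  simp only
  rw [lf_neg]
  ring

/-- **the exponential moment** -/
theorem mgf (hU : Lip U) (hc : Cc U) (v : ι → ℝ) (t : ℝ) :
    ∫ z, Real.exp (U z) * Real.exp (t * (lf v z - mU U (lf v))) ∂(gI ι) ≤
      Real.exp (t ^ 2 * nq v / 2) * ∫ z, Real.exp (U z) ∂(gI ι) := by
  have key : ∫ z, Real.exp (U z + t * lf v z) ∂(gI ι) ≤
      Real.exp (t * mU U (lf v) + t ^ 2 * nq v / 2) * ∫ z, Real.exp (U z) ∂(gI ι) := by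
    rcases lt_trichotomy t 0 with h | h | h
    · have h1 := mgf_pos hU hc (-v) (neg_pos.2 h)
      rw [mU_neg, nq_neg, neg_sq, neg_mul_neg] at h1
      refine le_trans (le_of_eq ?_) h1
      refine integral_congr_ae (Filter.Eventually.of_forall fun z => ?_)
      simp only
      rw [lf_neg, neg_mul_neg]
    · subst h
      simp
    · exact mgf_pos hU hc v h
  have e : ∫ z, Real.exp (U z) * Real.exp (t * (lf v z - mU U (lf v))) ∂(gI ι) =
      Real.exp (-(t * mU U (lf v))) * ∫ z, Real.exp (U z + t * lf v z) ∂(gI ι) := by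
    rw [← integral_const_mul]
    refine integral_congr_ae (Filter.Eventually.of_forall fun z => ?_)
    simp only
    rw [← Real.exp_add, ← Real.exp_add]
    congr 1
    ring
  rw [e]
  have h1 := mul_le_mul_of_nonneg_left key (Real.exp_pos (-(t * mU U (lf v)))).le
  refine h1.trans (le_of_eq ?_)
  rw [← mul_assoc, ← Real.exp_add]
  congr 2
  ring

/-! ### moments from the exponential moment -/

lemma cosh_ge (u : ℝ) : 1 + u ^ 2 / 2 + u ^ 4 / 24 ≤ (Real.exp u + Real.exp (-u)) / 2 := by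
  rw [← Real.cosh_eq]
  have h := sum_le_hasSum (Finset.range 3) (fun n _ => by
    have : 0 ≤ u ^ (2 * n) := by rw [pow_mul]; positivity
    positivity) (Real.hasSum_cosh u)
  refine le_trans (le_of_eq ?_) h
  simp [Finset.sum_range_succ, Nat.factorial]

lemma two_add_sq_le (u : ℝ) : 2 + u ^ 2 ≤ Real.exp u + Real.exp (-u) := by
  have h1 := cosh_ge u
  have h2 : 0 ≤ u ^ 4 / 24 := by positivity
  linarith

lemma four_le (u : ℝ) : u ^ 4 / 12 ≤ Real.exp u + Real.exp (-u) := by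
  have h1 := cosh_ge u
  have h2 : 0 ≤ u ^ 2 / 2 := by positivity
  linarith

lemma real_var {A V M0 : ℝ} (hV : 0 ≤ V) (hM : 0 ≤ M0)
    (h : ∀ t : ℝ, 0 < t → t ^ 2 * A + 2 * M0 ≤ 2 * (Real.exp (t ^ 2 * V / 2) * M0)) :
    A ≤ V * M0 := by
  refine le_of_forall_pos_le_add fun ε hε => ?_
  -- choose `t² = u` small
  obtain ⟨u, hu, hu1, hu2⟩ : ∃ u : ℝ, 0 < u ∧ u * V / 2 ≤ 1 ∧ V ^ 2 / 2 * M0 * u ≤ ε := by
    refine ⟨min (1 / (V + 1)) (ε / (V ^ 2 / 2 * M0 + 1)), by positivity, ?_, ?_⟩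
    · have h1 : min (1 / (V + 1)) (ε / (V ^ 2 / 2 * M0 + 1)) ≤ 1 / (V + 1) := min_le_left _ _
      have h2 := mul_le_mul_of_nonneg_right h1 hV
      have h3 : 1 / (V + 1) * V ≤ 1 := by
        rw [div_mul_eq_mul_div, div_le_iff₀ (by positivity)]
        linarith
      linarith
    · have h1 : min (1 / (V + 1)) (ε / (V ^ 2 / 2 * M0 + 1)) ≤ ε / (V ^ 2 / 2 * M0 + 1) :=
        min_le_right _ _
      have h2 := mul_le_mul_of_nonneg_left h1 (show 0 ≤ V ^ 2 / 2 * M0 by positivity)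
      refine h2.trans ?_
      rw [mul_div_assoc', div_le_iff₀ (by positivity)]
      nlinarith [show 0 ≤ V ^ 2 / 2 * M0 by positivity]
  have h1 := h (√u) (Real.sqrt_pos.2 hu)
  rw [Real.sq_sqrt hu.le] at h1
  have h2 : Real.exp (u * V / 2) ≤ 1 + u * V / 2 + (u * V / 2) ^ 2 := by
    have h0 : 0 ≤ u * V / 2 := by positivity
    have := Real.abs_exp_sub_one_sub_id_le (x := u * V / 2) (by rw [abs_of_nonneg h0]; exact hu1)
    have := (abs_le.1 this).2
    linarith
  have h3 := mul_le_mul_of_nonneg_right h2 hM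
  have h4 : u * A ≤ u * (V * M0 + ε) := by
    have h5 : u * (V ^ 2 / 2 * M0 * u) ≤ u * ε := mul_le_mul_of_nonneg_left hu2 hu.le
    nlinarith
  exact le_of_mul_le_mul_left h4 hu

lemma real_four {B V M0 : ℝ} (hV : 0 < V) (hM : 0 ≤ M0)
    (h : ∀ t : ℝ, 0 < t → t ^ 4 * B / 12 ≤ 2 * (Real.exp (t ^ 2 * V / 2) * M0)) :
    B ≤ 12 * V ^ 2 * M0 := by
  have h1 := h (√(4 / V)) (Real.sqrt_pos.2 (by positivity))
  have h2 : √(4 / V) ^ 2 = 4 / V := Real.sq_sqrt (by positivity)
  have h3 : √(4 / V) ^ 4 = 16 / V ^ 2 := by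
    rw [show √(4 / V) ^ 4 = (√(4 / V) ^ 2) ^ 2 by ring, h2]
    ring
  have h4 : 4 / V * V / 2 = 2 := by field_simp; norm_num
  rw [h2, h3, h4] at h1
  have h5 : Real.exp 2 ≤ 7.5 := by
    have e : (2 : ℝ) = 1 + 1 := by norm_num
    rw [e, Real.exp_add]
    have := Real.exp_one_lt_d9
    nlinarith [Real.exp_pos 1]
  have h6 : 16 / V ^ 2 * B / 12 ≤ 15 * M0 := h1.trans (by nlinarith)
  have h7 : 16 / V ^ 2 * B / 12 = (4 / (3 * V ^ 2)) * B := by
    field_simp
    ring
  rw [h7, div_mul_eq_mul_div, div_le_iff₀ (by positivity)] at h6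
  nlinarith [mul_nonneg (sq_nonneg V) hM]

end Vale.Agent.P146.H186
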