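import Vale.Agent.P146.H186.SkI
import Vale.Agent.P146.H295.Conc
import Vale.Agent.P146.H610.Win

/-!
# The deficit of the fields of the SK system, and the selection of the field variances (helper186)
-/

open MeasureTheory ProbabilityTheory Filter Topology Set

namespace Vale.Agent.P146.H186

open Vale.Agent.P157.Lv Vale.Agent.P157.Lv.Sy Vale.Agent.P146.H425
open Vale.Agent.P146.H93 (Cd st am aSK skS Em linS_sk)
open Vale.Agent.P146.H295 (gg ll)
open Vale.Agent.P146.H610.Win (Bx)

set_option linter.unusedSectionVars false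

variable {n K : ℕ} {m b w : ℕ → ℝ} {p : ℕ}

/-- **the diagonal of the deficit Gram matrix of the SK system** -/
theorem gg_SK (hn : 0 < n) (hp : 1 ≤ p ∧ p ≤ K) {zc : ℕ → Fin n → Cd n K} {s : ℕ → ℝ}
    (hzc : zc p = wc hp) (hs : s p = w p) (h0 : 0 < w p) :
    gg (skS n K m b w) (fun x i => H325.sp x i) zc s p p =
      (n - VSK (n := n) m b w hp) / (n ^ 2 * w p ^ 2) := by
  have hn' : (0 : ℝ) < n := by exact_mod_cast hn
  have e1 : ll (fun x i => H325.sp x i) zc s p =
      fun z x => 1 / (n * w p) * Lp (wc (n := n) hp) (fun x i => H325.sp x i) z x := by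
    funext z x
    unfold ll Vale.Agent.P157.Lv.hz Lp
    rw [hzc, hs, ← mul_assoc]
    congr 1
    · field_simp
    · exact Finset.sum_congr rfl fun i _ => mul_comm _ _
  have e2 : H295.Cv (skS n K m b w) (ll (fun x i => H325.sp x i) zc s p)
      (ll (fun x i => H325.sp x i) zc s p) =
      (1 / (n * w p)) ^ 2 * VSK (n := n) m b w hp := by
    rw [e1]
    unfold H295.Cv VSK VarL
    have e3 : (fun (z : Cd n K → ℝ) (x : Fin n → ℤˣ) =>
        1 / (n * w p) * Lp (wc (n := n) hp) (fun x i => H325.sp x i) z x *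
          (1 / (n * w p) * Lp (wc (n := n) hp) (fun x i => H325.sp x i) z x)) =
        fun z x => (1 / (n * w p)) ^ 2 * Lp (wc (n := n) hp) (fun x i => H325.sp x i) z x ^ 2 := by
      funext z x; ring
    rw [e3, Sy.Ex_const_mul, Sy.Ex_const_mul]
    ring
  unfold gg
  rw [if_pos rfl, e2, hs]
  field_simp

/-! ## Selection -/

/-- the amplitudes with the variances `v` on the levels of `P` -/
noncomputable def amp (w : ℕ → ℝ) (P : Finset ℕ) (v : {p // p ∈ P} → ℝ) (l : ℕ) : ℝ :=
  if h : l ∈ P then √(v ⟨l, h⟩) else w l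

lemma amp_mem (w : ℕ → ℝ) (P : Finset ℕ) (v : {p // p ∈ P} → ℝ) (p : {p // p ∈ P}) :
    amp w P v p = √(v p) := by
  unfold amp
  rw [dif_pos p.2]

lemma amp_update (w : ℕ → ℝ) (P : Finset ℕ) (v : {p // p ∈ P} → ℝ) (p : {p // p ∈ P}) (t : ℝ) :
    amp w P (Function.update v p t) = Function.update (amp w P v) p √t := by
  funext l
  by_cases hl : l = p
  · subst hl
    rw [amp_mem, Function.update_self, Function.update_self]
  · rw [Function.update_of_ne hl]
    unfold amp
    by_cases h : l ∈ P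
    · rw [dif_pos h, dif_pos h, Function.update_of_ne]
      intro h'
      exact hl (by rw [← h'])
    · rw [dif_neg h, dif_neg h]

/-- **selection of one vector of variances for finitely many laws**: if the responses vary by at
most `δ` on the box of radius `R` around `c`, then at one point of the box the deficits of all
fields are at most `8 |J| δ v / (m_p R)` -/
theorem sel_SK {J : Type} [Fintype J] [Nonempty J] {K : J → ℕ} {m b w : J → ℕ → ℝ}
    (hm : ∀ j, Em (K j) (m j)) {P : Finset ℕ} (hP : ∀ j, ∀ p ∈ P, 1 ≤ p ∧ p ≤ K j)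
    {c : {p // p ∈ P} → ℝ} {R δ : ℝ} (hR : 0 < R) (hδ : 0 < δ) (hc : ∀ p, R < c p)
    (hb : ∀ j, ∀ v ∈ Bx c R, ∀ p : {p // p ∈ P},
      |cSK n (K j) (m j) (b j) (amp (w j) P v) p - cSK n (K j) (m j) (b j) (amp (w j) P c) p| ≤ δ) :
    ∃ v : {p // p ∈ P} → ℝ, (∀ p, |v p - c p| < R) ∧
      ∀ j, ∀ p : {p // p ∈ P},
        m j p * (n - VSK (n := n) (m j) (b j) (amp (w j) P v) (hP j p p.2)) ≤
          2 * v p * (4 * (Fintype.card J * δ) / R) := by
  have hpos : ∀ v ∈ Bx c R, ∀ p : {p // p ∈ P}, 0 < v p := by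
    intro v hv p
    have := abs_le.1 (hv p)
    linarith [hc p]
  -- the derivatives
  have key : ∀ j, ∀ v ∈ Bx c R, ∀ p : {p // p ∈ P},
      HasDerivAt (fun t => (skS n (K j) (m j) (b j) (amp (w j) P (Function.update v p t))).fe)
        (cSK n (K j) (m j) (b j) (amp (w j) P v) p / 2) (v p) ∧
      ∃ χ' : ℝ, HasDerivAt (fun t => cSK n (K j) (m j) (b j)
        (amp (w j) P (Function.update v p t)) p) χ' (v p) ∧
      m j p * (n - VSK (n := n) (m j) (b j) (amp (w j) P v) (hP j p p.2)) ≤ -(2 * v p * χ') := by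
    intro j v hv p
    have h := SK_resp (n := n) (m := m j) (b := b j) (w := amp (w j) P v) (hm j) (hP j p p.2)
      (hpos v hv p)
    simp only [← amp_update] at h
    have e : Function.update (amp (w j) P v) p √(v p) = amp (w j) P v := by
      rw [← amp_update, Function.update_eq_self]
    have e2 : amp (w j) P (Function.update v p (v p)) = amp (w j) P v := by
      rw [Function.update_eq_self]
    simp only [e2] at h
    exact h
  choose! χ' hχ' using fun j v hv p => (key j v hv p).2
  obtain ⟨v, hv, h⟩ := H610.Win.win_all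
    (Φ := fun j v => (skS n (K j) (m j) (b j) (amp (w j) P v)).fe)
    (χ := fun j p v => cSK n (K j) (m j) (b j) (amp (w j) P v) p)
    (χ' := fun j p v => χ' j v p) (c := c) hR hδ
    (fun j v hv p => (key j v hv p).1) (fun j v hv p => (hχ' j v hv p).1)
    (fun j v hv p => by
      have h1 := (hχ' j v hv p).2
      have h2 : 0 ≤ n - VSK (n := n) (m j) (b j) (amp (w j) P v) (hP j p p.2) := by
        linarith [VSK_le (n := n) (b := b j) (w := amp (w j) P v) (hm j) (hP j p p.2)]
      have h3 : 0 ≤ m j p := by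
        have hmm : ∀ l, l ≤ K j + 1 → 0 ≤ m j l := by
          intro l
          induction l with
          | zero => intro _; rw [(hm j).m0]
          | succ l ih =>
            intro hl
            exact (ih (by omega)).trans ((hm j).mono l (by omega))
        exact hmm p (by have := (hP j p p.2).2; omega)
      have h4 := mul_nonneg h3 h2
      have h5 := hpos v hv p
      by_contra h6
      push Not at h6
      have := mul_pos (mul_pos (by norm_num : (0 : ℝ) < 2) h5) h6
      linarith)
    hb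
  refine ⟨v, hv, fun j p => ?_⟩
  have hvB : v ∈ Bx c R := fun p => (hv p).le
  have h1 := (hχ' j v hvB p).2
  have h2 := h j p
  have h3 := hpos v hvB p
  have h4 : 2 * v p * -χ' j v p ≤ 2 * v p * (4 * (Fintype.card J * δ) / R) :=
    mul_le_mul_of_nonneg_left h2 (by positivity)
  linarith

/-- the same in the letters of the deficit matrix: `m_p gg_pp ≤ 8 |J| δ / (n² R)` -/
theorem sel_gg {J : Type} [Fintype J] [Nonempty J] (hn : 0 < n) {K : J → ℕ} {m b w : J → ℕ → ℝ}
    (hm : ∀ j, Em (K j) (m j)) {P : Finset ℕ} (hP : ∀ j, ∀ p ∈ P, 1 ≤ p ∧ p ≤ K j)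
    {c : {p // p ∈ P} → ℝ} {R δ : ℝ} (hR : 0 < R) (hδ : 0 < δ) (hc : ∀ p, R < c p)
    (hb : ∀ j, ∀ v ∈ Bx c R, ∀ p : {p // p ∈ P},
      |cSK n (K j) (m j) (b j) (amp (w j) P v) p - cSK n (K j) (m j) (b j) (amp (w j) P c) p| ≤ δ) :
    ∃ v : {p // p ∈ P} → ℝ, (∀ p, |v p - c p| < R) ∧
      ∀ j, ∀ zc : ℕ → Fin n → Cd n (K j), ∀ p : {p // p ∈ P}, zc p = wc (hP j p p.2) →
        gg (skS n (K j) (m j) (b j) (amp (w j) P v)) (fun x i => H325.sp x i) zc
          (amp (w j) P v) p p ≤ 8 * Fintype.card J * δ / (m j p * n ^ 2 * R) := by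
  obtain ⟨v, hv, h⟩ := sel_SK (n := n) hm hP hR hδ hc hb
  refine ⟨v, hv, fun j zc p hz => ?_⟩
  have hn' : (0 : ℝ) < n := by exact_mod_cast hn
  have hvp : 0 < v p := by
    have := abs_lt.1 (hv p)
    linarith [hc p]
  have hw : 0 < amp (w j) P v p := by rw [amp_mem]; exact Real.sqrt_pos.2 hvp
  have hw2 : amp (w j) P v p ^ 2 = v p := by rw [amp_mem]; exact Real.sq_sqrt hvp.le
  have hmp : 0 < m j p := by
    have hmm : ∀ l, l + 1 ≤ K j + 1 → 0 < m j (l + 1) := by
      intro l
      induction l with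
      | zero => intro _; exact (hm j).pos
      | succ l ih =>
        intro hl
        exact (ih (by omega)).trans_le ((hm j).mono (l + 1) (by omega))
    have h1 := hP j p p.2
    have h2 := hmm (p - 1) (by omega)
    have e : (p : ℕ) - 1 + 1 = p := by omega
    rwa [e] at h2
  rw [gg_SK (m := m j) (b := b j) hn (hP j p p.2) hz rfl hw, hw2]
  have h1 := h j p
  rw [div_le_div_iff₀ (by positivity) (by positivity)]
  have h2 : m j p * (n - VSK (n := n) (m j) (b j) (amp (w j) P v) (hP j p p.2)) * R ≤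
      2 * v p * (4 * (Fintype.card J * δ)) := by
    have := mul_le_mul_of_nonneg_right h1 hR.le
    rw [mul_assoc (2 * v p), div_mul_cancel₀ _ hR.ne'] at this
    exact this
  nlinarith [mul_le_mul_of_nonneg_right h2 (sq_nonneg (n : ℝ))]

end Vale.Agent.P146.H186
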