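import Vale.Agent.P146.H186.Pl

/-!
# Gauge covariance of the conditional averages of a linear layered system (helper186)
-/

open MeasureTheory ProbabilityTheory Filter Topology

namespace Vale.Agent.P146.H186

open Vale.Agent.P157.Lv Vale.Agent.P157.Lv.Sy Vale.Agent.P146.H425
open Vale.Agent.P146.H94 (sg Gg sg_sg sg_mix int_sg lg_inv)

set_option linter.unusedSectionVars false

variable {ι X : Type} [Fintype ι] [DecidableEq ι] [Fintype X] [DecidableEq X] [Nonempty X]
  {S : Sy ι X} {a : X → ι → ℝ} {c0 : ℝ} {x0 : X}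

/-- linear forms which are covariant under the gauge group -/
def CovG (G : Gg a x0) (v : X → ι → ℝ) : Prop := ∀ y x e, v (G.op y x) e = G.chi y e * v x e

/-- any two configurations are exchanged by an element of the gauge group -/
def Sw (G : Gg a x0) : Prop := ∀ b b' : X, ∃ y, G.op y b = b' ∧ G.op y b' = b

lemma CovG.lf {G : Gg a x0} {v : X → ι → ℝ} (hv : CovG G v) (y x : X) (z : ι → ℝ) :
    lf (v (G.op y x)) (sg (G.chi y) z) = lf (v x) z := by
  unfold H186.lf
  refine Finset.sum_congr rfl fun e _ => ?_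
  rw [hv]
  unfold sg
  calc G.chi y e * v x e * (G.chi y e * z e) = (G.chi y e * G.chi y e) * (v x e * z e) := by ring
    _ = v x e * z e := by rw [G.sq, one_mul]

lemma CovG.nq {G : Gg a x0} {v : X → ι → ℝ} (hv : CovG G v) (y x : X) :
    nq (v (G.op y x)) = nq (v x) := by
  unfold H186.nq
  refine Finset.sum_congr rfl fun e _ => ?_
  rw [hv, mul_pow, sq (G.chi y e), G.sq, one_mul]

lemma CovG.add {G : Gg a x0} {v w : X → ι → ℝ} (hv : CovG G v) (hw : CovG G w) :
    CovG G (fun x e => v x e + w x e) := fun y x e => by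
  simp only [hv y x e, hw y x e]
  ring

lemma CovG.smul {G : Gg a x0} {v : X → ι → ℝ} (hv : CovG G v) (t : ℝ) :
    CovG G (fun x e => t * v x e) := fun y x e => by
  simp only [hv y x e]
  ring

lemma H_sg (h : LinS S a (fun _ => c0)) (G : Gg a x0) (y x : X) (z : ι → ℝ) :
    S.H (sg (G.chi y) z) (G.op y x) = S.H z x := by
  rw [h.H, h.H]
  congr 1
  refine Finset.sum_congr rfl fun e _ => ?_
  rw [G.act]
  unfold sg
  calc G.chi y e * a x e * (G.chi y e * z e) = (G.chi y e * G.chi y e) * (a x e * z e) := by ring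
    _ = a x e * z e := by rw [G.sq, one_mul]

lemma Ux_sg (h : LinS S a (fun _ => c0)) (G : Gg a x0) (y x : X) (z : ι → ℝ) :
    Ux S (G.op y x) (sg (G.chi y) z) = Ux S x z := by
  unfold Ux
  rw [H_sg h G]
  congr 1
  refine Finset.sum_congr rfl fun j hj => ?_
  rw [lg_inv h.H G y j (by have := Finset.mem_range.1 hj; omega)]

lemma mass_op (h : LinS S a (fun _ => c0)) (G : Gg a x0) (y x : X) :
    ∫ z, Real.exp (Ux S (G.op y x) z) ∂(gI ι) = ∫ z, Real.exp (Ux S x z) ∂(gI ι) := by
  rw [← int_sg (G.sq y)]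
  simp only [Ux_sg h G]

/-- the mean of a covariant linear form does not depend on the configuration -/
theorem mU_op (h : LinS S a (fun _ => c0)) (G : Gg a x0) {v : X → ι → ℝ} (hv : CovG G v)
    (y x : X) : mU (Ux S (G.op y x)) (lf (v (G.op y x))) = mU (Ux S x) (lf (v x)) := by
  unfold mU
  rw [mass_op h G]
  congr 1
  rw [← int_sg (G.sq y)]
  simp only [Ux_sg h G, hv.lf]

theorem mU_all (h : LinS S a (fun _ => c0)) (G : Gg a x0) {v : X → ι → ℝ} (hv : CovG G v)
    (x : X) : mU (Ux S x) (lf (v x)) = S.Ex (fun z x => lf (v x) z) := by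
  have h1 : ∀ x, mU (Ux S x) (lf (v x)) = mU (Ux S x0) (lf (v x0)) := by
    intro x
    have := mU_op h G hv x x0
    rwa [G.tr] at this
  rw [h1 x, Ex_lf h.reg h1]

/-! ### the conditional averages -/

omit [DecidableEq ι] in
lemma J_sg' {χ : ι → ℝ} (hχ : ∀ e, χ e * χ e = 1) (lev : ι → ℕ) (l : ℕ) (h : (ι → ℝ) → ℝ)
    (z : ι → ℝ) : J lev l h (sg χ z) = J lev l (fun z => h (sg χ z)) z := by
  unfold J
  rw [← int_sg hχ fun w => h (mix lev l (sg χ z) w)]
  refine integral_congr_ae (Filter.Eventually.of_forall fun w => ?_)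
  simp only
  rw [sg_mix]

lemma dn_sg (h : LinS S a (fun _ => c0)) (G : Gg a x0) (y : X) (l : ℕ) (z : ι → ℝ) :
    S.dn l (sg (G.chi y) z) = S.dn l z := by
  unfold Sy.dn
  congr 1
  refine Finset.sum_congr rfl fun i hi => ?_
  rw [Finset.mem_Ico] at hi
  rw [lg_inv h.H G y i (by omega), lg_inv h.H G y (i + 1) (by omega)]

lemma gb_sg (h : LinS S a (fun _ => c0)) (G : Gg a x0) (y x : X) (z : ι → ℝ) :
    S.gb (sg (G.chi y) z) (G.op y x) = S.gb z x := by
  unfold Sy.gb
  rw [H_sg h G]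
  congr 1
  rw [← Equiv.sum_comp (G.op y) fun x => Real.exp (S.H (sg (G.chi y) z) x)]
  exact Finset.sum_congr rfl fun x _ => by rw [H_sg h G]

lemma av_sg (h : LinS S a (fun _ => c0)) (G : Gg a x0) (y : X) (f : (ι → ℝ) → X → ℝ)
    (z : ι → ℝ) : S.av f (sg (G.chi y) z) =
      S.av (fun z x => f (sg (G.chi y) z) (G.op y x)) z := by
  unfold Sy.av
  rw [← Equiv.sum_comp (G.op y)]
  exact Finset.sum_congr rfl fun x _ => by rw [gb_sg h G]

/-- **gauge covariance of the conditional averages** -/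
theorem T_sg (h : LinS S a (fun _ => c0)) (G : Gg a x0) (y : X) (l : ℕ)
    (f : (ι → ℝ) → X → ℝ) (z : ι → ℝ) : S.T l f (sg (G.chi y) z) =
      S.T l (fun z x => f (sg (G.chi y) z) (G.op y x)) z := by
  unfold Sy.T
  rw [J_sg' (G.sq y)]
  congr 1
  funext z
  rw [dn_sg h G, av_sg h G]

/-- **gauge invariance of the tilted average** -/
theorem Ex_sg (h : LinS S a (fun _ => c0)) (G : Gg a x0) (y : X) (f : (ι → ℝ) → X → ℝ) :
    S.Ex f = S.Ex (fun z x => f (sg (G.chi y) z) (G.op y x)) := by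
  unfold Sy.Ex
  rw [← int_sg (G.sq y)]
  simp only [dn_sg h G, av_sg h G]

/-- the function `1_{x = b} f` -/
noncomputable def ind (f : (ι → ℝ) → X → ℝ) (b : X) : (ι → ℝ) → X → ℝ :=
  fun z x => if x = b then f z x else 0

lemma nh_ind {f : (ι → ℝ) → X → ℝ} (hf : Nh f) (b : X) : Nh (ind f b) := by
  intro x
  unfold ind
  by_cases hx : x = b
  · simp only [hx, if_true]
    exact hf b
  · simp only [hx, if_false]
    exact EG.const 0

/-- a gauge invariant observable -/
def InvG (G : Gg a x0) (f : (ι → ℝ) → X → ℝ) : Prop :=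
  ∀ y z x, f (sg (G.chi y) z) (G.op y x) = f z x

lemma CovG.inv {G : Gg a x0} {v : X → ι → ℝ} (hv : CovG G v) :
    InvG G fun z x => H186.lf (v x) z := fun y z x => hv.lf y x z

lemma T_ind_sg (h : LinS S a (fun _ => c0)) (G : Gg a x0) {f : (ι → ℝ) → X → ℝ}
    (hf : InvG G f) (l : ℕ) {y b b' : X} (hb : G.op y b = b') (z : ι → ℝ) :
    S.T l (ind f b') (sg (G.chi y) z) = S.T l (ind f b) z := by
  rw [T_sg h G]
  congr 1
  funext z x
  unfold ind
  have e : (G.op y x = b') ↔ x = b := by rw [← hb]; exact (G.op y).injective.eq_iff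
  simp only [e, hf y z x]

/-- **the pair average of an invariant observable of the first replica, at two given
configurations, is symmetric** -/
theorem pair_swap (h : LinS S a (fun _ => c0)) (G : Gg a x0) (hG : Sw G)
    {f g : (ι → ℝ) → X → ℝ} (hf : InvG G f) (hg : InvG G g) (l : ℕ) (b b' : X) :
    S.Ex (fun z _ => S.T l (ind f b) z * S.T l (ind g b') z) =
      S.Ex (fun z _ => S.T l (ind f b') z * S.T l (ind g b) z) := by
  obtain ⟨y, h1, h2⟩ := hG b b'
  rw [Ex_sg h G y (fun z _ => S.T l (ind f b) z * S.T l (ind g b') z)]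
  congr 1
  funext z x
  rw [T_ind_sg h G hf l h2, T_ind_sg h G hg l h1]

end Vale.Agent.P146.H186
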