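import Vale.Agent.P146.H186.Pr

/-!
# Derivative in a parameter of the energy (helper186)

`S_t` = the system with the energy `H + t V`, `V` Lipschitz in the coordinates. The log-weights have
the derivatives `T_l V`, and `d/dt Ex h = Ex (h (V - ∑_{j ≥ 0} (m_{j+1} - m_j) T_j V))`.
-/

open MeasureTheory ProbabilityTheory Filter Topology

namespace Vale.Agent.P146.H186

open Vale.Agent.P157.Lv Vale.Agent.P157.Lv.Sy Vale.Agent.P146.H425 Vale.Agent.P146.H784

set_option linter.unusedSectionVars false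

variable {ι X : Type} [Fintype ι] [DecidableEq ι] [Fintype X] [DecidableEq X] [Nonempty X]
  {S : Sy ι X} {V : (ι → ℝ) → X → ℝ} {l : ℕ}

/-! ### differentiation under the average -/

/-- a family of functions of exponential growth with a locally uniform bound of the derivative -/
lemma hasDerivAt_J {F F' : ℝ → (ι → ℝ) → ℝ} {t0 : ℝ} (lev : ι → ℕ) (l : ℕ)
    (hd : ∀ t z, HasDerivAt (fun t => F t z) (F' t z) t) (hF : ∀ t, EG (F t))
    (hF' : EG (F' t0)) {B : (ι → ℝ) → ℝ} (hB : EG B)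
    (hb : ∀ t, |t - t0| < 1 → ∀ z, |F' t z| ≤ B z) (z : ι → ℝ) :
    HasDerivAt (fun t => J lev l (F t) z) (J lev l (F' t0) z) t0 := by
  unfold J
  refine (hasDerivAt_integral_of_dominated_loc_of_deriv_le (s := Metric.ball t0 1)
    (bound := fun w => B (mix lev l z w)) (Metric.ball_mem_nhds t0 one_pos)
    (Filter.Eventually.of_forall fun t => ((hF t).mix z).aestronglyMeasurable)
    ((hF t0).mix z) (F' := fun t w => F' t (mix lev l z w))
    (hF'.mix z).aestronglyMeasurable
    (Filter.Eventually.of_forall fun w t ht => ?_) (hB.mix z)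
    (Filter.Eventually.of_forall fun w t _ => hd t _)).2
  rw [Real.norm_eq_abs]
  exact hb t (by rwa [Metric.mem_ball, Real.dist_eq] at ht) _

lemma hasDerivAt_int {F F' : ℝ → (ι → ℝ) → ℝ} {t0 : ℝ}
    (hd : ∀ t z, HasDerivAt (fun t => F t z) (F' t z) t) (hF : ∀ t, EG (F t))
    (hF' : EG (F' t0)) {B : (ι → ℝ) → ℝ} (hB : EG B)
    (hb : ∀ t, |t - t0| < 1 → ∀ z, |F' t z| ≤ B z) :
    HasDerivAt (fun t => ∫ z, F t z ∂(gI ι)) (∫ z, F' t0 z ∂(gI ι)) t0 := by
  refine (hasDerivAt_integral_of_dominated_loc_of_deriv_le (s := Metric.ball t0 1)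
    (bound := B) (Metric.ball_mem_nhds t0 one_pos)
    (Filter.Eventually.of_forall fun t => (hF t).integrable.aestronglyMeasurable)
    (hF t0).integrable (F' := F')
    hF'.integrable.aestronglyMeasurable
    (Filter.Eventually.of_forall fun w t ht => ?_) hB.integrable
    (Filter.Eventually.of_forall fun w t _ => hd t _)).2
  rw [Real.norm_eq_abs]
  exact hb t (by rwa [Metric.mem_ball, Real.dist_eq] at ht) _

/-! ### the family -/

lemma pt_reg (hS : S.Reg) (hV : ∀ x, Lip fun z => V z x) (t : ℝ) : (pt S V t).Reg where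
  m0 := hS.m0
  mK := hS.mK
  mono := hS.mono
  pos := hS.pos
  lev := hS.lev
  lip := fun x => (hS.lip x).add ((hV x).const_mul t)

/-- tangent inequality (Jensen) -/
lemma jen (hS : S.Reg) (hV : ∀ x, Lip fun z => V z x) (hl : l ≤ S.K) (t t' : ℝ) (z : ι → ℝ) :
    (t' - t) * (pt S V t).T l V z ≤ (pt S V t').lg l z - (pt S V t).lg l z := by
  have h := Reg.jensen_lg (S := pt S V t) (H' := fun z x => S.H z x + t' * V z x)
    (pt_reg hS hV t) (pt_reg hS hV t') (l := l) hl z
  have e : (fun z x => (S.H z x + t' * V z x) - (pt S V t).H z x) =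
      fun z x => (t' - t) * V z x := by
    funext z x
    show (S.H z x + t' * V z x) - (S.H z x + t * V z x) = _
    ring
  rw [e, T_const_mul] at h
  exact h

/-- the bound of the log-weights for `|t| ≤ R` -/
noncomputable def Bd (S : Sy ι X) (V : (ι → ℝ) → X → ℝ) (R : ℝ) (l : ℕ) (z : ι → ℝ) : ℝ :=
  (|(pt S V R).lg l z| + |(pt S V (-R)).lg l z| + |(pt S V 0).lg l z|) +
    R * (|(pt S V 1).lg l z| + |(pt S V (-1)).lg l z| + |(pt S V 0).lg l z|)

lemma lip_abs {F : (ι → ℝ) → ℝ} (hF : Lip F) : Lip fun z => |F z| :=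
  hF.comp (g := fun x => |x|) zero_le_one fun x y => by
    rw [one_mul]; exact abs_abs_sub_abs_le_abs_sub x y

lemma lip_Bd (hS : S.Reg) (hV : ∀ x, Lip fun z => V z x) (R : ℝ) (hl : l ≤ S.K) :
    Lip (Bd S V R l) := by
  have h : ∀ t, Lip fun z => |(pt S V t).lg l z| := fun t =>
    lip_abs ((pt_reg hS hV t).lip_lg hl)
  exact (((h R).add (h (-R))).add (h 0)).add ((((h 1).add (h (-1))).add (h 0)).const_mul R)

lemma bd_nonneg {R : ℝ} (hR : 0 ≤ R) (l : ℕ) (z : ι → ℝ) : 0 ≤ Bd S V R l z := by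
  unfold Bd
  positivity

lemma bd_lg (hS : S.Reg) (hV : ∀ x, Lip fun z => V z x) (hl : l ≤ S.K) {R t : ℝ}
    (ht : |t| ≤ R) (z : ι → ℝ) : |(pt S V t).lg l z| ≤ Bd S V R l z := by
  have hR : 0 ≤ R := (abs_nonneg t).trans ht
  obtain ⟨h1, h2⟩ := abs_le.1 ht
  have j1 := jen hS hV hl t R z
  have j2 := jen hS hV hl t (-R) z
  have j0 := jen hS hV hl 0 t z
  have k1 := jen hS hV hl 0 1 z
  have k2 := jen hS hV hl 0 (-1) z
  obtain ⟨L, hL⟩ : ∃ L, L = (pt S V t).lg l z := ⟨_, rfl⟩
  obtain ⟨T, hT⟩ : ∃ T, T = (pt S V t).T l V z := ⟨_, rfl⟩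
  obtain ⟨T0, hT0⟩ : ∃ T, T = (pt S V 0).T l V z := ⟨_, rfl⟩
  obtain ⟨P, hP⟩ : ∃ P, P = (pt S V R).lg l z := ⟨_, rfl⟩
  obtain ⟨M, hM⟩ : ∃ P, P = (pt S V (-R)).lg l z := ⟨_, rfl⟩
  obtain ⟨Z, hZ⟩ : ∃ P, P = (pt S V 0).lg l z := ⟨_, rfl⟩
  obtain ⟨P1, hP1⟩ : ∃ P, P = (pt S V 1).lg l z := ⟨_, rfl⟩
  obtain ⟨M1, hM1⟩ : ∃ P, P = (pt S V (-1)).lg l z := ⟨_, rfl⟩
  unfold Bd
  rw [← hL, ← hP, ← hM, ← hZ, ← hP1, ← hM1]
  rw [← hL, ← hP, ← hT] at j1
  rw [← hL, ← hM, ← hT] at j2
  rw [← hL, ← hZ, ← hT0] at j0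
  rw [← hP1, ← hZ, ← hT0] at k1
  rw [← hM1, ← hZ, ← hT0] at k2
  have a1 := abs_nonneg P
  have a2 := abs_nonneg M
  have a3 := abs_nonneg Z
  have a4 := abs_nonneg P1
  have a5 := abs_nonneg M1
  have b1 := le_abs_self P
  have b2 := le_abs_self M
  have b3 := neg_abs_le Z
  have b4 := le_abs_self P1
  have b5 := le_abs_self M1
  have hRs : 0 ≤ R * (|P1| + |M1| + |Z|) := by positivity
  rw [abs_le]
  constructor
  · -- lower bound
    have t1 : T0 ≤ |P1| + |M1| + |Z| := by linarith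
    have t2 : -(|P1| + |M1| + |Z|) ≤ T0 := by linarith
    have t3 : -(R * (|P1| + |M1| + |Z|)) ≤ t * T0 := by
      have : |t * T0| ≤ R * (|P1| + |M1| + |Z|) := by
        rw [abs_mul]
        exact mul_le_mul ht (abs_le.2 ⟨t2, t1⟩) (abs_nonneg _) hR
      linarith [(abs_le.1 this).1]
    linarith
  · rcases hR.eq_or_lt with h0 | h0
    · have : t = 0 := by
        rw [← h0] at ht
        exact abs_eq_zero.1 (le_antisymm ht (abs_nonneg t))
      subst this
      have e : L = Z := by rw [hL, hZ]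
      have := le_abs_self Z
      rw [e]
      linarith
    · -- upper bound by convexity
      have c1 := mul_le_mul_of_nonneg_left j1 (show 0 ≤ R + t by linarith)
      have c2 := mul_le_mul_of_nonneg_left j2 (show 0 ≤ R - t by linarith)
      have c3 : 2 * R * L ≤ (R + t) * P + (R - t) * M := by nlinarith
      have c4 : (R + t) * P + (R - t) * M ≤ 2 * R * (|P| + |M|) := by nlinarith
      have c5 : 2 * R * L ≤ 2 * R * (|P| + |M|) := c3.trans c4
      have c6 := le_of_mul_le_mul_left c5 (by positivity)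
      linarith

lemma bd_T (hS : S.Reg) (hV : ∀ x, Lip fun z => V z x) (hl : l ≤ S.K) {R t : ℝ}
    (ht : |t| ≤ R) (z : ι → ℝ) : |(pt S V t).T l V z| ≤ 2 * Bd S V (R + 1) l z := by
  obtain ⟨h1, h2⟩ := abs_le.1 ht
  have j1 := jen hS hV hl t (t + 1) z
  have j2 := jen hS hV hl t (t - 1) z
  have b0 := bd_lg hS hV hl (R := R + 1) (t := t) (abs_le.2 ⟨by linarith, by linarith⟩) z
  have b1 := bd_lg hS hV hl (R := R + 1) (t := t + 1) (abs_le.2 ⟨by linarith, by linarith⟩) z
  have b2 := bd_lg hS hV hl (R := R + 1) (t := t - 1) (abs_le.2 ⟨by linarith, by linarith⟩) z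
  obtain ⟨p0, q0⟩ := abs_le.1 b0
  obtain ⟨p1, q1⟩ := abs_le.1 b1
  obtain ⟨p2, q2⟩ := abs_le.1 b2
  rw [abs_le]
  constructor <;> nlinarith

/-- the conditional average as a quotient -/
lemma T_quot (hS : S.Reg) (hl : l < S.K) {h : (ι → ℝ) → X → ℝ} (hh : Nh h) (z : ι → ℝ) :
    J S.lev l (fun z => Real.exp (S.m (l + 1) * S.lg (l + 1) z) * S.T (l + 1) h z) z =
      Real.exp (S.m (l + 1) * S.lg l z) * S.T l h z := by
  rw [hS.T_stepI hl hh z]
  have hdep : Dep S.lev l (fun z => Real.exp (S.m (l + 1) * S.lg l z)) := by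
    intro z w
    have h2 := (hS.dep_lg (l := l) hl.le) z w
    simp only [h2]
  rw [← hdep.J_mul]
  congr 1
  funext z
  rw [← mul_assoc, ← Real.exp_add]
  congr 2
  ring

/-- **the derivative of the log-weights** -/
theorem deriv_lg (hS : S.Reg) (hV : ∀ x, Lip fun z => V z x) : ∀ l ≤ S.K, ∀ t z,
    HasDerivAt (fun t => (pt S V t).lg l z) ((pt S V t).T l V z) t := by
  have hVn : Nh V := fun x => (hV x).eg
  refine down_ind (P := fun l => ∀ t z, HasDerivAt (fun t => (pt S V t).lg l z)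
    ((pt S V t).T l V z) t) ?_ ?_
  · intro t z
    have e1 : ∀ t, (pt S V t).lg S.K z = Real.log (∑ x, Real.exp (S.H z x + t * V z x)) := by
      intro t
      have := lg_top (pt S V t)
      exact congrFun this z
    simp only [e1]
    have hR := pt_reg hS hV t
    have e2 : (pt S V t).T S.K V z = (pt S V t).av V z := hR.T_top V z
    rw [e2]
    have hpos : 0 < ∑ x, Real.exp (S.H z x + t * V z x) :=
      Finset.sum_pos (fun _ _ => Real.exp_pos _) Finset.univ_nonempty
    have h1 : HasDerivAt (fun t => ∑ x, Real.exp (S.H z x + t * V z x))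
        (∑ x, Real.exp (S.H z x + t * V z x) * V z x) t := by
      refine HasDerivAt.fun_sum fun x _ => ?_
      have := (((hasDerivAt_id t).mul_const (V z x)).const_add (S.H z x)).exp
      simpa using this
    refine (h1.log hpos.ne').congr_deriv ?_
    unfold Sy.av Sy.gb
    rw [Finset.sum_div]
    refine Finset.sum_congr rfl fun x _ => ?_
    show _ = Real.exp (S.H z x + t * V z x) / (∑ x, Real.exp (S.H z x + t * V z x)) * V z x
    rw [div_mul_eq_mul_div]
  · intro l hl ih t z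
    have hm : 0 < S.m (l + 1) := hS.m_pos (by omega) (by omega)
    have hR := fun t => pt_reg hS hV t
    have hd : ∀ t z, HasDerivAt (fun t => Real.exp (S.m (l + 1) * (pt S V t).lg (l + 1) z))
        (Real.exp (S.m (l + 1) * (pt S V t).lg (l + 1) z) *
          (S.m (l + 1) * (pt S V t).T (l + 1) V z)) t := fun t z =>
      ((ih t z).const_mul (S.m (l + 1))).exp
    have e1 : ∀ t, EG fun z => Real.exp (S.m (l + 1) * (pt S V t).lg (l + 1) z) := fun t =>
      ((hR t).lip_lg (l := l + 1) hl).exp_eg _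
    have e2 : ∀ t, EG ((pt S V t).T (l + 1) V) := fun t => (hR t).eg_T hl hVn
    have hB : EG fun z => Real.exp (S.m (l + 1) * Bd S V (|t| + 1) (l + 1) z) *
        (S.m (l + 1) * (2 * Bd S V (|t| + 1 + 1) (l + 1) z)) :=
      ((lip_Bd hS hV _ hl).exp_eg _).mul (((lip_Bd hS hV _ hl).eg.const_mul 2).const_mul _)
    have h1 := hasDerivAt_J (t0 := t) S.lev l hd e1
      ((e1 t).mul ((e2 t).const_mul _)) hB (fun s hs z => by
        have hs' : |s| ≤ |t| + 1 := by
          have := abs_add_le (s - t) t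
          rw [sub_add_cancel] at this
          linarith
        rw [abs_mul, abs_of_pos (Real.exp_pos _), abs_mul, abs_of_pos hm]
        have b1 := bd_lg hS hV (l := l + 1) hl hs' z
        have b2 := bd_T hS hV (l := l + 1) hl hs' z
        refine mul_le_mul (Real.exp_le_exp.2 ?_) ?_ (by positivity) (Real.exp_pos _).le
        · exact mul_le_mul_of_nonneg_left ((le_abs_self _).trans b1) hm.le
        · exact mul_le_mul_of_nonneg_left b2 hm.le) z
    have e3 : ∀ t, (pt S V t).lg l z = 1 / S.m (l + 1) * Real.log (J S.lev l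
        (fun z => Real.exp (S.m (l + 1) * (pt S V t).lg (l + 1) z)) z) := by
      intro t
      have := lg_step (pt S V t) (l := l) hl
      exact congrFun this z
    simp only [e3]
    have hJ : J S.lev l (fun z => Real.exp (S.m (l + 1) * (pt S V t).lg (l + 1) z)) z =
        Real.exp (S.m (l + 1) * (pt S V t).lg l z) := (hR t).J_exp_lg (l := l) hl z
    have hne : J S.lev l (fun z => Real.exp (S.m (l + 1) * (pt S V t).lg (l + 1) z)) z ≠ 0 := by
      rw [hJ]; exact (Real.exp_pos _).ne'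
    refine ((h1.log hne).const_mul (1 / S.m (l + 1))).congr_deriv ?_
    have hq := T_quot (hR t) (l := l) hl hVn z
    have e4 : J S.lev l (fun z => Real.exp (S.m (l + 1) * (pt S V t).lg (l + 1) z) *
        (S.m (l + 1) * (pt S V t).T (l + 1) V z)) z =
        S.m (l + 1) * (Real.exp (S.m (l + 1) * (pt S V t).lg l z) * (pt S V t).T l V z) := by
      have hq' : J S.lev l (fun z => Real.exp (S.m (l + 1) * (pt S V t).lg (l + 1) z) *
        (pt S V t).T (l + 1) V z) z =
        Real.exp (S.m (l + 1) * (pt S V t).lg l z) * (pt S V t).T l V z := hq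
      rw [← hq', ← J_const_mul]
      congr 1
      funext z
      ring
    rw [e4, hJ]
    field_simp

end Vale.Agent.P146.H186
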