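import Vale.Agent.P146.H186.Par

/-!
# The derivative of a tilted average in a parameter of the energy (helper186)
-/

open MeasureTheory ProbabilityTheory Filter Topology

namespace Vale.Agent.P146.H186

open Vale.Agent.P157.Lv Vale.Agent.P157.Lv.Sy Vale.Agent.P146.H425 Vale.Agent.P146.H784

set_option linter.unusedSectionVars false

variable {ι X : Type} [Fintype ι] [DecidableEq ι] [Fintype X] [DecidableEq X] [Nonempty X]
  {S : Sy ι X} {V : (ι → ℝ) → X → ℝ} {l : ℕ}

/-- the weights `m_{j+1} - m_j` -/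
lemma q_nonneg (hS : S.Reg) {j : ℕ} (hj : j ≤ S.K) : 0 ≤ S.m (j + 1) - S.m j := by
  have := hS.mono j hj; linarith

lemma sum_q (hS : S.Reg) : ∑ j ∈ Finset.range (S.K + 1), (S.m (j + 1) - S.m j) = 1 := by
  rw [Finset.sum_range_sub, hS.mK, hS.m0, sub_zero]

lemma sum_q_from (hS : S.Reg) {p : ℕ} (hp : p ≤ S.K + 1) :
    ∑ j ∈ Finset.Ico p (S.K + 1), (S.m (j + 1) - S.m j) = 1 - S.m p := by
  rw [Finset.sum_Ico_sub _ hp, hS.mK]

lemma sum_q_below (hS : S.Reg) {p : ℕ} (hp : p ≤ S.K + 1) :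
    ∑ j ∈ Finset.range p, (S.m (j + 1) - S.m j) = S.m p := by
  rw [Finset.sum_range_sub, hS.m0, sub_zero]

/-- the score of the parameter -/
noncomputable def sc (S : Sy ι X) (V : (ι → ℝ) → X → ℝ) (t : ℝ) (z : ι → ℝ) (x : X) : ℝ :=
  V z x - ∑ j ∈ Finset.range (S.K + 1), (S.m (j + 1) - S.m j) * (pt S V t).T j V z

lemma nh_sc (hS : S.Reg) (hV : ∀ x, Lip fun z => V z x) (t : ℝ) : Nh (sc S V t) := by
  have hVn : Nh V := fun x => (hV x).eg
  exact Nh.sub hVn (Nh.fst (EG.sum _ fun j hj =>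
    ((pt_reg hS hV t).eg_T (by have := Finset.mem_range.1 hj; show j ≤ S.K; omega)
      hVn).const_mul _))

lemma deriv_Ux (hS : S.Reg) (hV : ∀ x, Lip fun z => V z x) (x : X) (t : ℝ) (z : ι → ℝ) :
    HasDerivAt (fun t => Ux (pt S V t) x z) (sc S V t z x) t := by
  have e : (fun t => Ux (pt S V t) x z) = fun t => (S.H z x + t * V z x) -
      ∑ j ∈ Finset.range (S.K + 1), (S.m (j + 1) - S.m j) * (pt S V t).lg j z := rfl
  rw [e]
  have h1 : HasDerivAt (fun t => S.H z x + t * V z x) (V z x) t := by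
    have := ((hasDerivAt_id t).mul_const (V z x)).const_add (S.H z x)
    simpa using this
  refine h1.sub (HasDerivAt.fun_sum fun j hj => ?_)
  exact (deriv_lg hS hV j (by have := Finset.mem_range.1 hj; omega) t z).const_mul _

/-- **the derivative of a tilted average** -/
theorem deriv_Ex (hS : S.Reg) (hV : ∀ x, Lip fun z => V z x) {h : (ι → ℝ) → X → ℝ}
    (hh : Nh h) (t : ℝ) :
    HasDerivAt (fun t => (pt S V t).Ex h) ((pt S V t).Ex (fun z x => sc S V t z x * h z x)) t := by
  have hVn : Nh V := fun x => (hV x).eg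
  have hR := fun t => pt_reg hS hV t
  have e1 : (fun t => (pt S V t).Ex h) = fun t => ∑ x, ∫ z, Real.exp (Ux (pt S V t) x z) *
      h z x ∂(gI ι) := by
    funext t
    exact Ex_eq_sum (hR t) hh
  rw [e1, Ex_eq_sum (hR t) (Nh.mul (nh_sc hS hV t) hh)]
  refine HasDerivAt.fun_sum fun x _ => ?_
  -- the bound
  obtain ⟨R, hRR⟩ : ∃ R, R = |t| + 1 := ⟨_, rfl⟩
  have hR0 : 0 ≤ R := by rw [hRR]; positivity
  let BU : (ι → ℝ) → ℝ := fun z => |S.H z x| + R * |V z x| +
    ∑ j ∈ Finset.range (S.K + 1), (S.m (j + 1) - S.m j) * Bd S V R j z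
  let BS : (ι → ℝ) → ℝ := fun z => |V z x| +
    ∑ j ∈ Finset.range (S.K + 1), (S.m (j + 1) - S.m j) * (2 * Bd S V (R + 1) j z)
  have lBU : Lip BU := ((lip_abs (hS.lip x)).add ((lip_abs (hV x)).const_mul R)).add
    (Lip.sum _ fun j hj => (lip_Bd hS hV R (by
      have := Finset.mem_range.1 hj; omega)).const_mul _)
  have eBS : EG BS := (hVn x).abs.add (EG.sum _ fun j hj =>
    (((lip_Bd hS hV (R + 1) (by have := Finset.mem_range.1 hj; omega)).eg.const_mul
      2).const_mul _))
  have hB : EG fun z => Real.exp (BU z) * BS z * |h z x| :=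
    ((eg_exp lBU).mul eBS).mul (hh x).abs
  have e2 : (fun z => Real.exp (Ux (pt S V t) x z) * (sc S V t z x * h z x)) =
      fun z => (Real.exp (Ux (pt S V t) x z) * sc S V t z x) * h z x := by
    funext z; ring
  rw [e2]
  refine hasDerivAt_int (F := fun t z => Real.exp (Ux (pt S V t) x z) * h z x)
    (F' := fun t z => (Real.exp (Ux (pt S V t) x z) * sc S V t z x) * h z x)
    (fun t z => ((deriv_Ux hS hV x t z).exp).mul_const _)
    (fun t => (eg_exp (lip_Ux (hR t) x)).mul (hh x))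
    (((eg_exp (lip_Ux (hR t) x)).mul (nh_sc hS hV t x)).mul (hh x)) hB fun s hs z => ?_
  have hs' : |s| ≤ R := by
    have := abs_add_le (s - t) t
    rw [sub_add_cancel] at this
    rw [hRR]
    linarith
  rw [abs_mul, abs_mul, abs_of_pos (Real.exp_pos _)]
  have b1 : Ux (pt S V s) x z ≤ BU z := by
    show (S.H z x + s * V z x) -
      ∑ j ∈ Finset.range (S.K + 1), (S.m (j + 1) - S.m j) * (pt S V s).lg j z ≤ _
    have c1 : s * V z x ≤ R * |V z x| := by
      refine (le_abs_self _).trans ?_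
      rw [abs_mul]
      exact mul_le_mul_of_nonneg_right hs' (abs_nonneg _)
    have c2 : -∑ j ∈ Finset.range (S.K + 1), (S.m (j + 1) - S.m j) * (pt S V s).lg j z ≤
        ∑ j ∈ Finset.range (S.K + 1), (S.m (j + 1) - S.m j) * Bd S V R j z := by
      rw [← Finset.sum_neg_distrib]
      refine Finset.sum_le_sum fun j hj => ?_
      have hj' : j ≤ S.K := by have := Finset.mem_range.1 hj; omega
      have := bd_lg hS hV hj' hs' z
      rw [← mul_neg]
      exact mul_le_mul_of_nonneg_left (by linarith [(abs_le.1 this).1]) (q_nonneg hS hj')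
    have c3 := le_abs_self (S.H z x)
    simp only [BU]
    linarith
  have b2 : |sc S V s z x| ≤ BS z := by
    unfold sc
    refine (abs_sub _ _).trans ?_
    simp only [BS]
    refine add_le_add le_rfl ((Finset.abs_sum_le_sum_abs _ _).trans
      (Finset.sum_le_sum fun j hj => ?_))
    have hj' : j ≤ S.K := by have := Finset.mem_range.1 hj; omega
    rw [abs_mul, abs_of_nonneg (q_nonneg hS hj')]
    exact mul_le_mul_of_nonneg_left (bd_T hS hV hj' hs' z) (q_nonneg hS hj')
  refine mul_le_mul_of_nonneg_right ?_ (abs_nonneg _)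
  exact mul_le_mul (Real.exp_le_exp.2 b1) b2 (abs_nonneg _) (Real.exp_pos _).le

/-- the covariance form of the derivative -/
theorem sc_cov (hS : S.Reg) (hV : ∀ x, Lip fun z => V z x) {h : (ι → ℝ) → X → ℝ}
    (hh : Nh h) (t : ℝ) : (pt S V t).Ex (fun z x => sc S V t z x * h z x) =
      ∑ j ∈ Finset.range (S.K + 1), (S.m (j + 1) - S.m j) *
        ((pt S V t).Ex (fun z x => V z x * h z x) -
          (pt S V t).Ex (fun z _ => (pt S V t).T j V z * (pt S V t).T j h z)) := by
  have hVn : Nh V := fun x => (hV x).eg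
  have hR := pt_reg hS hV t
  have nT : ∀ j ≤ S.K, EG ((pt S V t).T j V) := fun j hj => hR.eg_T hj hVn
  have e1 : (fun z x => sc S V t z x * h z x) = fun z x => V z x * h z x -
      ∑ j ∈ Finset.range (S.K + 1), (S.m (j + 1) - S.m j) *
        ((pt S V t).T j V z * h z x) := by
    funext z x
    unfold sc
    rw [sub_mul, Finset.sum_mul]
    congr 1
    exact Finset.sum_congr rfl fun j _ => by ring
  have n1 : ∀ j ∈ Finset.range (S.K + 1), Nh fun z x => (S.m (j + 1) - S.m j) *
      ((pt S V t).T j V z * h z x) := fun j hj =>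
    Nh.const_mul _ (Nh.mul (Nh.fst (nT j (by have := Finset.mem_range.1 hj; omega))) hh)
  rw [e1, hR.Ex_sub (Nh.mul hVn hh) (Nh.sum _ n1), hR.Ex_sum _ n1]
  have e2 : ∀ j ∈ Finset.range (S.K + 1), (pt S V t).Ex (fun z x => (S.m (j + 1) - S.m j) *
      ((pt S V t).T j V z * h z x)) = (S.m (j + 1) - S.m j) *
        (pt S V t).Ex (fun z _ => (pt S V t).T j V z * (pt S V t).T j h z) := by
    intro j hj
    have hj' : j ≤ (pt S V t).K := by
      have := Finset.mem_range.1 hj; show j ≤ S.K; omega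
    rw [Sy.Ex_const_mul, hR.Ex_mul_T hj' ((pt S V t).dep_T j V) (nT j hj') hh]
  rw [Finset.sum_congr rfl e2]
  simp only [mul_sub]
  rw [Finset.sum_sub_distrib, ← Finset.sum_mul, sum_q hS, one_mul]

end Vale.Agent.P146.H186
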