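import Vale.Agent.P146.H186.BL
import Vale.Agent.P146.H94.Gauge
import Vale.Agent.P146.H784.Dbl

/-!
# The planted law of a linear layered system (helper186)

`Ex h = ∑_x ∫ exp (Ux x) h(·, x)` with `Ux x = H(·, x) - ∑_j p_j lg_j`, a concave function. Linear
forms `v_x · z` with a mean which does not depend on `x` have the variance at most `E |v_x|²` and
Gaussian exponential moments.
-/

open MeasureTheory ProbabilityTheory Filter Topology

namespace Vale.Agent.P146.H186

open Vale.Agent.P157.Lv Vale.Agent.P157.Lv.Sy Vale.Agent.P146.H425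
open Vale.Agent.P146.H94 (sg Gg sg_sg sg_mix int_sg lg_inv)

set_option linter.unusedSectionVars false

variable {ι X : Type} [Fintype ι] [DecidableEq ι] [Fintype X] [DecidableEq X] [Nonempty X]
  {S : Sy ι X} {a : X → ι → ℝ} {c : X → ℝ}

/-- the exponent of the planted density -/
noncomputable def Ux (S : Sy ι X) (x : X) (z : ι → ℝ) : ℝ :=
  S.H z x - ∑ j ∈ Finset.range (S.K + 1), (S.m (j + 1) - S.m j) * S.lg j z

lemma lip_Ux (hS : S.Reg) (x : X) : Lip (Ux S x) := by
  have h2 : Lip fun z : ι → ℝ => ∑ j ∈ Finset.range (S.K + 1),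
      (S.m (j + 1) - S.m j) * S.lg j z :=
    Lip.sum _ fun j hj => by
      rw [Finset.mem_range] at hj
      exact (hS.lip_lg (l := j) (by omega)).const_mul _
  have h3 := (hS.lip x).add (h2.const_mul (-1))
  have e : Ux S x = fun z => S.H z x +
      -1 * ∑ j ∈ Finset.range (S.K + 1), (S.m (j + 1) - S.m j) * S.lg j z := by
    funext z; unfold Ux; ring
  rw [e]
  exact h3

lemma cc_Ux (h : LinS S a c) (x : X) : Cc (Ux S x) := by
  intro p q hp hq hpq z w
  have e1 : S.H (p • z + q • w) x = p * S.H z x + q * S.H w x := by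
    rw [h.H, h.H, h.H]
    have e2 : ∑ e, a x e * (p • z + q • w) e =
        p * ∑ e, a x e * z e + q * ∑ e, a x e * w e := by
      rw [Finset.mul_sum, Finset.mul_sum, ← Finset.sum_add_distrib]
      refine Finset.sum_congr rfl fun e _ => ?_
      simp only [Pi.add_apply, Pi.smul_apply, smul_eq_mul]
      ring
    rw [e2]
    have e3 : c x = p * c x + q * c x := by rw [← add_mul, hpq, one_mul]
    linear_combination e3
  have e2 : ∑ j ∈ Finset.range (S.K + 1), (S.m (j + 1) - S.m j) * S.lg j (p • z + q • w) ≤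
      p * ∑ j ∈ Finset.range (S.K + 1), (S.m (j + 1) - S.m j) * S.lg j z +
      q * ∑ j ∈ Finset.range (S.K + 1), (S.m (j + 1) - S.m j) * S.lg j w := by
    rw [Finset.mul_sum, Finset.mul_sum, ← Finset.sum_add_distrib]
    refine Finset.sum_le_sum fun j hj => ?_
    rw [Finset.mem_range] at hj
    have hpj : 0 ≤ S.m (j + 1) - S.m j := by
      have := h.reg.mono j (by omega); linarith
    have := mul_le_mul_of_nonneg_left (h.cv_lg j (by omega) p q hp hq hpq z w) hpj
    linarith
  unfold Ux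
  rw [e1]
  linarith

/-- the density of the planted law -/
lemma dn_gb (hS : S.Reg) (z : ι → ℝ) (x : X) : S.dn 0 z * S.gb z x = Real.exp (Ux S x z) := by
  rw [H94.dn_eq hS, gb_eq]
  unfold Ux
  rw [mul_right_comm, ← Real.exp_add, ← Real.exp_add]
  congr 1
  ring

/-- **the planted form of the tilted average** -/
theorem Ex_eq_sum (hS : S.Reg) {h : (ι → ℝ) → X → ℝ} (hh : Nh h) :
    S.Ex h = ∑ x, ∫ z, Real.exp (Ux S x z) * h z x ∂(gI ι) := by
  unfold Sy.Ex Sy.av
  have e1 : ∀ z, S.dn 0 z * ∑ x, S.gb z x * h z x = ∑ x, Real.exp (Ux S x z) * h z x := by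
    intro z
    rw [Finset.mul_sum]
    refine Finset.sum_congr rfl fun x _ => ?_
    rw [← mul_assoc, dn_gb hS]
  simp only [e1]
  exact integral_finsetSum _ fun x _ => ((eg_exp (lip_Ux hS x)).mul (hh x)).integrable

lemma sum_mass (hS : S.Reg) : ∑ x, ∫ z, Real.exp (Ux S x z) ∂(gI ι) = 1 := by
  have h := Ex_eq_sum hS (h := fun _ _ => 1) (fun _ => EG.const _)
  rw [hS.Ex_const] at h
  simpa using h.symm

lemma Ex_fun (hS : S.Reg) (f : X → ℝ) :
    S.Ex (fun _ x => f x) = ∑ x, f x * ∫ z, Real.exp (Ux S x z) ∂(gI ι) := by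
  rw [Ex_eq_sum hS (Nh.snd f)]
  refine Finset.sum_congr rfl fun x _ => ?_
  rw [integral_mul_const, mul_comm]

lemma Ex_ind (hS : S.Reg) {h : (ι → ℝ) → X → ℝ} (hh : Nh h) (b : X) :
    S.Ex (fun z x => if x = b then h z x else 0) =
      ∫ z, Real.exp (Ux S b z) * h z b ∂(gI ι) := by
  have hn : Nh fun (z : ι → ℝ) x => if x = b then h z x else 0 := by
    intro x
    by_cases hx : x = b
    · simp only [hx, if_true]
      exact hh b
    · simp only [hx, if_false]
      exact EG.const 0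
  rw [Ex_eq_sum hS hn, Finset.sum_eq_single b]
  · simp
  · intro x _ hx
    simp [hx]
  · intro hb
    exact absurd (Finset.mem_univ b) hb

/-! ### linear forms -/

lemma nh_lf (v : X → ι → ℝ) : Nh fun z x => lf (v x) z := fun x => eg_lf (v x)

lemma nh_exp_lf (v : X → ι → ℝ) (t c0 : ℝ) :
    Nh fun z x => Real.exp (t * (lf (v x) z - c0)) := by
  intro x
  have h := (eg_exp_lf (v x) t).mul (EG.const (ι := ι) (Real.exp (-(t * c0))))
  have e : (fun z => Real.exp (t * (lf (v x) z - c0))) =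
      fun z => Real.exp (t * lf (v x) z) * Real.exp (-(t * c0)) := by
    funext z
    rw [← Real.exp_add]; congr 1; ring
  rw [e]
  exact h

/-- the mean of the linear form -/
lemma Ex_lf (hS : S.Reg) {v : X → ι → ℝ} {c0 : ℝ}
    (hm : ∀ x, mU (Ux S x) (lf (v x)) = c0) : S.Ex (fun z x => lf (v x) z) = c0 := by
  rw [Ex_eq_sum hS (nh_lf v)]
  have e : ∀ x, ∫ z, Real.exp (Ux S x z) * lf (v x) z ∂(gI ι) =
      c0 * ∫ z, Real.exp (Ux S x z) ∂(gI ι) := by
    intro x
    have h := hm x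
    unfold mU at h
    rw [div_eq_iff (int_pos (lip_Ux hS x)).ne'] at h
    exact h
  simp only [e]
  rw [← Finset.mul_sum, sum_mass hS, mul_one]

/-- **the exponential moment of a linear form under the planted law** -/
theorem Ex_mgf (h : LinS S a c) {v : X → ι → ℝ} {c0 : ℝ}
    (hm : ∀ x, mU (Ux S x) (lf (v x)) = c0) (t : ℝ) :
    S.Ex (fun z x => Real.exp (t * (lf (v x) z - c0))) ≤
      S.Ex (fun _ x => Real.exp (t ^ 2 * nq (v x) / 2)) := by
  have hS := h.reg
  rw [Ex_eq_sum hS (nh_exp_lf v t c0), Ex_fun hS]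
  refine Finset.sum_le_sum fun x _ => ?_
  have := mgf (lip_Ux hS x) (cc_Ux h x) (v x) t
  rwa [hm x] at this

/-- **the variance of a linear form under the planted law** -/
theorem Ex_var (h : LinS S a c) {v : X → ι → ℝ} {c0 : ℝ}
    (hm : ∀ x, mU (Ux S x) (lf (v x)) = c0) :
    S.Ex (fun z x => (lf (v x) z - c0) ^ 2) ≤ S.Ex (fun _ x => nq (v x)) := by
  have hS := h.reg
  have n1 : Nh fun z x => (lf (v x) z - c0) ^ 2 :=
    Nh.pow (Nh.sub (nh_lf v) (fun _ => EG.const c0)) 2
  rw [Ex_eq_sum hS n1, Ex_fun hS]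
  refine Finset.sum_le_sum fun x _ => ?_
  refine real_var (nq_nonneg (v x)) (int_pos (lip_Ux hS x)).le fun t ht => ?_
  have m1 := mgf (lip_Ux hS x) (cc_Ux h x) (v x) t
  have m2 := mgf (lip_Ux hS x) (cc_Ux h x) (v x) (-t)
  rw [hm x] at m1 m2
  rw [neg_sq] at m2
  have i1 := ((eg_exp (lip_Ux hS x)).mul (n1 x)).integrable
  have i2 := ((eg_exp (lip_Ux hS x)).mul (nh_exp_lf v t c0 x)).integrable
  have i3 := ((eg_exp (lip_Ux hS x)).mul (nh_exp_lf v (-t) c0 x)).integrable
  have i0 := (eg_exp (lip_Ux hS x)).integrable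
  have key : ∫ z, (t ^ 2 * (Real.exp (Ux S x z) * (lf (v x) z - c0) ^ 2) +
      2 * Real.exp (Ux S x z)) ∂(gI ι) ≤
      ∫ z, (Real.exp (Ux S x z) * Real.exp (t * (lf (v x) z - c0)) +
        Real.exp (Ux S x z) * Real.exp (-t * (lf (v x) z - c0))) ∂(gI ι) := by
    refine integral_mono ((i1.const_mul _).add (i0.const_mul _)) (i2.add i3) fun z => ?_
    simp only
    have := mul_le_mul_of_nonneg_left (two_add_sq_le (t * (lf (v x) z - c0)))
      (Real.exp_pos (Ux S x z)).le
    have e : -t * (lf (v x) z - c0) = -(t * (lf (v x) z - c0)) := by ring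
    rw [e]
    refine le_trans (le_of_eq ?_) (this.trans (le_of_eq ?_)) <;> ring
  rw [integral_add (i1.const_mul _) (i0.const_mul _), integral_add i2 i3, integral_const_mul,
    integral_const_mul] at key
  linarith

/-- **the fourth moment of a linear form under the planted law** -/
theorem Ex_four (h : LinS S a c) {v : X → ι → ℝ} {c0 V : ℝ} (hV : 0 < V)
    (hv : ∀ x, nq (v x) ≤ V) (hm : ∀ x, mU (Ux S x) (lf (v x)) = c0) :
    S.Ex (fun z x => (lf (v x) z - c0) ^ 4) ≤ 12 * V ^ 2 := by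
  have hS := h.reg
  have n1 : Nh fun z x => (lf (v x) z - c0) ^ 4 :=
    Nh.pow (Nh.sub (nh_lf v) (fun _ => EG.const c0)) 4
  have h1 := real_four (B := S.Ex (fun z x => (lf (v x) z - c0) ^ 4)) (M0 := 1) hV zero_le_one
    fun t ht => ?_
  · simpa using h1
  have hb : ∀ t : ℝ, S.Ex (fun z x => Real.exp (t * (lf (v x) z - c0))) ≤
      Real.exp (t ^ 2 * V / 2) := by
    intro t
    refine (Ex_mgf h hm t).trans ?_
    rw [← hS.Ex_const (Real.exp (t ^ 2 * V / 2))]
    refine hS.Ex_mono (Nh.snd fun x => Real.exp (t ^ 2 * nq (v x) / 2)) (fun _ => EG.const _)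
      fun z x => ?_
    refine Real.exp_le_exp.2 ?_
    have := mul_le_mul_of_nonneg_left (hv x) (sq_nonneg t)
    linarith
  have m1 := hb t
  have m2 := hb (-t)
  rw [neg_sq] at m2
  have key := hS.Ex_mono (f := fun z x => t ^ 4 / 12 * (lf (v x) z - c0) ^ 4)
    (g := fun z x => Real.exp (t * (lf (v x) z - c0)) + Real.exp (-t * (lf (v x) z - c0)))
    (Nh.const_mul _ n1) (Nh.add (nh_exp_lf v t c0) (nh_exp_lf v (-t) c0)) fun z x => by
      have := four_le (t * (lf (v x) z - c0))
      have e : -t * (lf (v x) z - c0) = -(t * (lf (v x) z - c0)) := by ring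
      rw [e]
      refine le_trans (le_of_eq ?_) this
      ring
  rw [Sy.Ex_const_mul, hS.Ex_add (nh_exp_lf v t c0) (nh_exp_lf v (-t) c0)] at key
  rw [mul_one]
  have e : t ^ 4 * S.Ex (fun z x => (lf (v x) z - c0) ^ 4) / 12 =
      t ^ 4 / 12 * S.Ex (fun z x => (lf (v x) z - c0) ^ 4) := by ring
  rw [e]
  linarith

end Vale.Agent.P146.H186
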