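import Vale.Agent.P146.H186.Gau

/-!
# The pair form of Brascamp-Lieb (helper186)

Two replicas which split at the level `l`: the difference of a covariant linear form between the two
replicas has the mean zero given the two configurations, hence
`E V² - E (T_l V)² ≤ (1/2) E |v_1 - v_2|²`.
-/

open MeasureTheory ProbabilityTheory Filter Topology

namespace Vale.Agent.P146.H186

open Vale.Agent.P157.Lv Vale.Agent.P157.Lv.Sy Vale.Agent.P146.H425 Vale.Agent.P146.H784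
open Vale.Agent.P146.H94 (sg Gg sg_sg sg_mix int_sg lg_inv)

set_option linter.unusedSectionVars false

variable {ι X : Type} [Fintype ι] [DecidableEq ι] [Fintype X] [DecidableEq X] [Nonempty X]
  {S : Sy ι X} {a : X → ι → ℝ} {c : X → ℝ} {c0 : ℝ} {x0 : X} {l : ℕ}

/-- the coefficients of `v y.1 (z1 z) + ε v y.2 (z2 z)` -/
noncomputable def dcf (ε : ℝ) (lev : ι → ℕ) (l : ℕ) (v : X → ι → ℝ) (y : X × X) : ι ⊕ ι → ℝ :=
  Sum.elim (fun e => v y.1 e + if lev e ≤ l then ε * v y.2 e else 0)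
    (fun e => if lev e ≤ l then 0 else ε * v y.2 e)

lemma lf_dcf (ε : ℝ) (lev : ι → ℕ) (l : ℕ) (v : X → ι → ℝ) (y : X × X) (z : ι ⊕ ι → ℝ) :
    lf (dcf ε lev l v y) z = lf (v y.1) (z1 z) + ε * lf (v y.2) (z2 lev l z) := by
  unfold lf dcf
  rw [Fintype.sum_sum_type, ← Finset.sum_add_distrib, Finset.mul_sum, ← Finset.sum_add_distrib]
  refine Finset.sum_congr rfl fun e _ => ?_
  simp only [Sum.elim_inl, Sum.elim_inr]
  unfold z1 z2 mix
  split_ifs <;> ring

lemma lin_dbl (h : LinS S a c) (hl : l ≤ S.K) :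
    LinS (dbl S l) (dcf 1 S.lev l a) (fun y => c y.1 + c y.2) where
  reg := dbl_reg h.reg hl
  H := fun z y => by
    show S.H (z1 z) y.1 + S.H (z2 S.lev l z) y.2 = _
    have e := lf_dcf 1 S.lev l a y z
    unfold lf at e
    rw [h.H, h.H, e]
    ring

/-- the mean of the difference is zero, given the two configurations -/
theorem mU_dcf (h : LinS S a (fun _ => c0)) (G : Gg a x0) (hG : Sw G) (hl : l ≤ S.K)
    {v : X → ι → ℝ} (hv : CovG G v) (y : X × X) :
    mU (Ux (dbl S l) y) (lf (dcf (-1) S.lev l v y)) = 0 := by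
  have hR := dbl_reg h.reg hl
  have hS := h.reg
  unfold mU
  rw [div_eq_zero_iff]
  left
  obtain ⟨b, b'⟩ := y
  have n1 : Nh fun z (y : X × X) => lf (dcf (-1) S.lev l v y) z :=
    nh_lf fun y => dcf (-1) S.lev l v y
  rw [← Ex_ind hR n1 (b, b')]
  have nV : Nh fun z x => lf (v x) z := nh_lf v
  have n0 : Nh fun (_ : ι → ℝ) (_ : X) => (1 : ℝ) := fun _ => EG.const 1
  have e1 : (fun z (x : X × X) => if x = (b, b') then lf (dcf (-1) S.lev l v x) z else 0) =
      fun z x => ind (fun z x => lf (v x) z) b (z1 z) x.1 *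
          ind (fun _ _ => 1) b' (z2 S.lev l z) x.2 -
        ind (fun _ _ => 1) b (z1 z) x.1 * ind (fun z x => lf (v x) z) b' (z2 S.lev l z) x.2 := by
    funext z x
    unfold ind
    simp only [lf_dcf]
    obtain ⟨x1, x2⟩ := x
    by_cases h1 : x1 = b
    · by_cases h2 : x2 = b'
      · simp [h1, h2]
        ring
      · simp [h1, h2]
    · simp [h1]
  have na : ∀ (A B : (ι → ℝ) → X → ℝ), Nh A → Nh B →
      Nh fun (z : ι ⊕ ι → ℝ) (x : X × X) => A (z1 z) x.1 * B (z2 S.lev l z) x.2 :=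
    fun A B hA hB => Nh.mul (nh_z1 hA) (nh_z2 hB S.lev l)
  rw [e1, hR.Ex_sub (na _ _ (nh_ind nV b) (nh_ind n0 b')) (na _ _ (nh_ind n0 b) (nh_ind nV b')),
    dbl_Ex hS hl (nh_ind nV b) (nh_ind n0 b'), dbl_Ex hS hl (nh_ind n0 b) (nh_ind nV b')]
  have i1 : InvG G (fun (_ : ι → ℝ) (_ : X) => (1 : ℝ)) := fun _ _ _ => rfl
  rw [pair_swap h G hG hv.inv i1 l b b']
  rw [sub_eq_zero]
  congr 1
  funext z _
  rw [mul_comm]

/-- **Brascamp-Lieb for pairs** -/
theorem pair_var (h : LinS S a (fun _ => c0)) (G : Gg a x0) (hG : Sw G) (hl : l ≤ S.K)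
    {v : X → ι → ℝ} (hv : CovG G v) :
    2 * (S.Ex (fun z x => lf (v x) z ^ 2) -
      S.Ex (fun z _ => S.T l (fun z x => lf (v x) z) z ^ 2)) ≤
      (dbl S l).Ex (fun _ y => nq (dcf (-1) S.lev l v y)) := by
  have hS := h.reg
  have hR := dbl_reg h.reg hl
  have h1 := Ex_var (lin_dbl h hl) (v := fun y => dcf (-1) S.lev l v y) (c0 := 0)
    (mU_dcf h G hG hl hv)
  refine le_trans (le_of_eq ?_) h1
  have nV : Nh fun z x => lf (v x) z := nh_lf v
  have n2 : Nh fun z x => lf (v x) z ^ 2 := Nh.pow nV 2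
  have e1 : (fun z (y : X × X) => (lf (dcf (-1) S.lev l v y) z - 0) ^ 2) =
      fun z y => (lf (v y.1) (z1 z) ^ 2 + lf (v y.2) (z2 S.lev l z) ^ 2) -
        2 * (lf (v y.1) (z1 z) * lf (v y.2) (z2 S.lev l z)) := by
    funext z y
    rw [lf_dcf]
    ring
  have m1 : Nh fun (z : ι ⊕ ι → ℝ) (y : X × X) => lf (v y.1) (z1 z) ^ 2 :=
    nh_z1 (A := fun z x => lf (v x) z ^ 2) n2
  have m2 : Nh fun (z : ι ⊕ ι → ℝ) (y : X × X) => lf (v y.2) (z2 S.lev l z) ^ 2 :=
    nh_z2 (A := fun z x => lf (v x) z ^ 2) n2 S.lev l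
  have m3 : Nh fun (z : ι ⊕ ι → ℝ) (y : X × X) =>
      lf (v y.1) (z1 z) * lf (v y.2) (z2 S.lev l z) :=
    Nh.mul (nh_z1 (A := fun z x => lf (v x) z) nV) (nh_z2 (A := fun z x => lf (v x) z) nV S.lev l)
  rw [e1, hR.Ex_sub (Nh.add m1 m2) (Nh.const_mul _ m3), hR.Ex_add m1 m2, Sy.Ex_const_mul,
    dbl_Ex_z1 hS hl (A := fun z x => lf (v x) z ^ 2) n2,
    dbl_Ex_z2 hS hl (A := fun z x => lf (v x) z ^ 2) n2,
    dbl_Ex hS hl (A := fun z x => lf (v x) z) (B := fun z x => lf (v x) z) nV nV]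
  have e2 : (fun z (_ : X) => S.T l (fun z x => lf (v x) z) z * S.T l (fun z x => lf (v x) z) z) =
      fun z _ => S.T l (fun z x => lf (v x) z) z ^ 2 := by
    funext z _
    rw [sq]
  rw [e2]
  ring

end Vale.Agent.P146.H186
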