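import Vale.Agent.P146.H186.Par2
import Vale.Agent.P146.H93.Tl0

/-!
# The second derivative in the amplitude of a white field (helper186)

A white field of the level `p` with the amplitude `t`: `H_t = H + t ∑_k d_k(x) z (wp k)`. With
`V = ∑_k d_k(x) z (wp k)`, `χ_p = D0 - ∑_{l ≥ p} q_l r_l`, `r_l = E |T_l d|²`:
`Ex V = t χ_p`, and `m_p (D0 - Var V) ≤ - t χ_p'(t)`.
-/

open MeasureTheory ProbabilityTheory Filter Topology

namespace Vale.Agent.P146.H186

open Vale.Agent.P157.Lv Vale.Agent.P157.Lv.Sy Vale.Agent.P146.H425 Vale.Agent.P146.H784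
open Vale.Agent.P146.H94 (sg Gg sg_sg sg_mix int_sg lg_inv)

set_option linter.unusedSectionVars false

variable {ι X ν : Type} [Fintype ι] [DecidableEq ι] [Fintype X] [DecidableEq X] [Nonempty X]
  [Fintype ν] {S : Sy ι X} {a : X → ι → ℝ} {c : X → ℝ} {c0 : ℝ} {x0 : X} {l p : ℕ}
  {wp : ν → ι} {d : X → ν → ℝ} {D0 : ℝ}

/-- the coefficients of the linear form of a white field -/
noncomputable def vf (wp : ν → ι) (d : X → ν → ℝ) (x : X) (e : ι) : ℝ :=
  ∑ k, if e = wp k then d x k else 0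

/-- the linear form of a white field -/
noncomputable def Lp (wp : ν → ι) (d : X → ν → ℝ) (z : ι → ℝ) (x : X) : ℝ :=
  ∑ k, d x k * z (wp k)

lemma dot_vf (f : ι → ℝ) (x : X) : ∑ e, vf wp d x e * f e = ∑ k, d x k * f (wp k) := by
  unfold vf
  simp_rw [Finset.sum_mul]
  rw [Finset.sum_comm]
  refine Finset.sum_congr rfl fun k _ => ?_
  simp only [ite_mul, zero_mul, Finset.sum_ite_eq', Finset.mem_univ, if_true]

lemma lf_vf (x : X) (z : ι → ℝ) : lf (vf wp d x) z = Lp wp d z x := dot_vf z x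

lemma vf_wp (hinj : Function.Injective wp) (x : X) (k : ν) : vf wp d x (wp k) = d x k := by
  unfold vf
  rw [Finset.sum_eq_single k]
  · simp
  · intro j _ hj
    rw [if_neg fun h => hj (hinj h).symm]
  · intro h; exact absurd (Finset.mem_univ k) h

lemma dot_vv (hinj : Function.Injective wp) (x x' : X) :
    ∑ e, vf wp d x e * vf wp d x' e = ∑ k, d x k * d x' k := by
  rw [dot_vf]
  exact Finset.sum_congr rfl fun k _ => by rw [vf_wp hinj]

lemma nq_vf (hinj : Function.Injective wp) (x : X) : nq (vf wp d x) = ∑ k, d x k ^ 2 := by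
  unfold nq
  have := dot_vv (d := d) hinj x x
  simp only [sq]
  exact this

lemma vf_lev {lev : ι → ℕ} (hl : ∀ k, lev (wp k) = p) {e : ι} (he : lev e ≠ p) (x : X) :
    vf wp d x e = 0 := by
  unfold vf
  refine Finset.sum_eq_zero fun k _ => ?_
  rw [if_neg]
  rintro rfl
  exact he (hl k)

/-- the family with the amplitude `t` -/
noncomputable def St (S : Sy ι X) (wp : ν → ι) (d : X → ν → ℝ) (t : ℝ) : Sy ι X :=
  pt S (Lp wp d) t

lemma lip_Lp (wp : ν → ι) (d : X → ν → ℝ) (x : X) : Lip fun z => Lp wp d z x :=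
  Lip.sum _ fun _ _ => (Lip.coord _).const_mul _

lemma nh_Lp (wp : ν → ι) (d : X → ν → ℝ) : Nh (Lp wp d) := fun x => (lip_Lp wp d x).eg

lemma lin_St (h : LinS S a c) (t : ℝ) :
    LinS (St S wp d t) (fun x e => a x e + t * vf wp d x e) c where
  reg := pt_reg h.reg (lip_Lp wp d) t
  H := fun z x => by
    show S.H z x + t * Lp wp d z x = _
    rw [h.H, ← lf_vf]
    unfold lf
    rw [Finset.mul_sum, add_assoc, ← Finset.sum_add_distrib]
    congr 1
    exact Finset.sum_congr rfl fun e _ => by ring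

/-- the gauge group of the family -/
def gSt (G : Gg a x0) (hv : CovG G (vf wp d)) (t : ℝ) :
    Gg (fun x e => a x e + t * vf wp d x e) x0 where
  op := G.op
  chi := G.chi
  sq := G.sq
  act := fun y x e => by
    rw [G.act, hv y x e]
    ring
  tr := G.tr

/-- A white field of the level `p` which can be added to the system. -/
structure WF (S : Sy ι X) (a : X → ι → ℝ) (G : Gg a x0) (p : ℕ) (wp : ν → ι) (d : X → ν → ℝ)
    (D0 : ℝ) : Prop where
  inj : Function.Injective wp
  lev : ∀ k, S.lev (wp k) = p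
  zero : ∀ x k, a x (wp k) = 0
  nrm : ∀ x, ∑ k, d x k ^ 2 = D0
  cov : CovG G (vf wp d)
  pK : p ≤ S.K

/-- the overlap of two replicas which split at the level `l` -/
noncomputable def rl (S : Sy ι X) (d : X → ν → ℝ) (l : ℕ) : ℝ :=
  S.Ex (fun z _ => ∑ k, S.T l (fun _ x => d x k) z ^ 2)

/-- the response `χ_p` -/
noncomputable def chi (S : Sy ι X) (d : X → ν → ℝ) (D0 : ℝ) (p : ℕ) : ℝ :=
  D0 - ∑ l ∈ Finset.Ico p (S.K + 1), (S.m (l + 1) - S.m l) * rl S d l

section wf

variable {G : Gg a x0} (W : WF S a G p wp d D0)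

include W

/-- `Ex V = t χ_p` -/
theorem Ex_Lp (h : LinS S a (fun _ => c0)) (t : ℝ) :
    (St S wp d t).Ex (Lp wp d) = t * chi (St S wp d t) d D0 p := by
  have hL := lin_St (wp := wp) (d := d) h t
  have hR := hL.reg
  have hD := H93.regD hL
  have hK : (St S wp d t).K = S.K := rfl
  have nd : ∀ k, Nh fun (_ : ι → ℝ) x => d x k := fun k => Nh.snd fun x => d x k
  have e0 : (St S wp d t).Ex (Lp wp d) =
      ∑ k, (St S wp d t).Ex (fun z x => z (wp k) * d x k) := by
    rw [← hR.Ex_sum Finset.univ (f := fun k z x => z (wp k) * d x k)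
      (fun k _ => Nh.mul (Nh.fst (EG.coord (wp k))) (nd k))]
    congr 1
    funext z x
    unfold Lp
    exact Finset.sum_congr rfl fun k _ => mul_comm _ _
  have e1 : ∀ k, (St S wp d t).Ex (fun z x => z (wp k) * d x k) =
      t * ((St S wp d t).Ex (fun _ x => d x k ^ 2) -
        ∑ l ∈ Finset.Ico p (S.K + 1), (S.m (l + 1) - S.m l) *
          (St S wp d t).Ex (fun z _ => (St S wp d t).T l (fun _ x => d x k) z ^ 2)) := by
    intro k
    have h1 := hD.ibp (wp k) (h := fun _ x => d x k) (h' := fun _ _ => 0)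
      (fun x => PD.const _) (nd k) (fun _ => EG.const 0)
    rw [h1]
    have hlev : (St S wp d t).lev (wp k) = p := W.lev k
    rw [hlev]
    have hc : ∀ x, a x (wp k) + t * vf wp d x (wp k) = t * d x k := by
      intro x
      rw [W.zero, vf_wp W.inj, zero_add]
    have e2 : (fun (z : ι → ℝ) x => 0 + d x k * ((a x (wp k) + t * vf wp d x (wp k)) -
        ∑ l ∈ Finset.Ico p ((St S wp d t).K + 1), (St S wp d t).p l *
          (St S wp d t).T l (fun _ x => a x (wp k) + t * vf wp d x (wp k)) z)) =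
        fun z x => t * (d x k ^ 2) - ∑ l ∈ Finset.Ico p (S.K + 1),
          (t * (S.m (l + 1) - S.m l)) * ((St S wp d t).T l (fun _ x => d x k) z * d x k) := by
      funext z x
      simp only [hc]
      have e3 : ∀ l, (St S wp d t).T l (fun _ x => t * d x k) z =
          t * (St S wp d t).T l (fun _ x => d x k) z := fun l =>
        T_const_mul (St S wp d t) l t (fun _ x => d x k) z
      simp only [e3]
      rw [zero_add, mul_sub, Finset.mul_sum]
      congr 1
      · ring
      · refine Finset.sum_congr rfl fun l _ => ?_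
        show d x k * ((S.m (l + 1) - S.m l) * (t * (St S wp d t).T l (fun _ x => d x k) z)) = _
        ring
    have n1 : ∀ l ∈ Finset.Ico p (S.K + 1), Nh fun (z : ι → ℝ) x =>
        (t * (S.m (l + 1) - S.m l)) * ((St S wp d t).T l (fun _ x => d x k) z * d x k) :=
      fun l hl => Nh.const_mul _ (Nh.mul (Nh.fst (hR.eg_T (by
        rw [Finset.mem_Ico] at hl; show l ≤ S.K; omega) (nd k))) (nd k))
    have n2 : Nh fun (_ : ι → ℝ) x => t * (d x k ^ 2) := Nh.snd fun x => t * d x k ^ 2
    refine (congrArg (St S wp d t).Ex e2).trans ?_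
    rw [hR.Ex_sub n2 (Nh.sum _ n1), hR.Ex_sum _ n1, Sy.Ex_const_mul, mul_sub, Finset.mul_sum]
    congr 1
    refine Finset.sum_congr rfl fun l hl => ?_
    have hl' : l ≤ (St S wp d t).K := by
      rw [Finset.mem_Ico] at hl; show l ≤ S.K; omega
    have e4 := hR.Ex_mul_T hl' ((St S wp d t).dep_T l (fun _ x => d x k))
      (hR.eg_T hl' (nd k)) (nd k)
    rw [Sy.Ex_const_mul, ← e4, mul_assoc]
    congr 3
    funext z _
    rw [sq]
  rw [e0]
  simp only [e1]
  rw [← Finset.mul_sum, Finset.sum_sub_distrib]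
  congr 1
  unfold chi
  congr 1
  · rw [← hR.Ex_sum Finset.univ (f := fun k _ x => d x k ^ 2) (fun k _ => Nh.pow (nd k) 2)]
    have e5 : (fun (_ : ι → ℝ) x => ∑ k, d x k ^ 2) = fun _ _ => D0 := by
      funext _ x
      exact W.nrm x
    rw [e5, hR.Ex_const]
  · rw [Finset.sum_comm]
    refine Finset.sum_congr rfl fun l hl => ?_
    have hl' : l ≤ (St S wp d t).K := by
      rw [Finset.mem_Ico] at hl; show l ≤ S.K; omega
    unfold rl
    rw [hR.Ex_sum Finset.univ (f := fun k z _ => (St S wp d t).T l (fun _ x => d x k) z ^ 2)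
      (fun k _ => Nh.fst ((hR.eg_T hl' (nd k)).pow 2)), Finset.mul_sum]
    rfl

/-- the levels below `p`: Jensen -/
lemma below (h : LinS S a (fun _ => c0)) (t : ℝ) {j : ℕ} (hj : j ≤ S.K) :
    (St S wp d t).Ex (fun z x => Lp wp d z x ^ 2) -
      (St S wp d t).Ex (fun z _ => (St S wp d t).T j (Lp wp d) z ^ 2) ≤
      (St S wp d t).Ex (fun z x => Lp wp d z x ^ 2) - (St S wp d t).Ex (Lp wp d) ^ 2 := by
  have hL := lin_St (wp := wp) (d := d) h t
  have hR := hL.reg
  have hj' : j ≤ (St S wp d t).K := hj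
  have h1 := hR.Ex_cs (f := fun z _ => (St S wp d t).T j (Lp wp d) z) (g := fun _ _ => 1)
    (Nh.fst (hR.eg_T hj' (nh_Lp wp d))) (fun _ => EG.const 1)
  simp only [mul_one, one_pow, hR.Ex_const] at h1
  rw [hR.Ex_T hj' (nh_Lp wp d)] at h1
  linarith

/-- the levels from `p` on: pairs -/
lemma above (h : LinS S a (fun _ => c0)) (hG : Sw G) (t : ℝ) {j : ℕ} (hpj : p ≤ j)
    (hj : j ≤ S.K) :
    (St S wp d t).Ex (fun z x => Lp wp d z x ^ 2) -
      (St S wp d t).Ex (fun z _ => (St S wp d t).T j (Lp wp d) z ^ 2) ≤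
      D0 - rl (St S wp d t) d j := by
  have hL := lin_St (wp := wp) (d := d) h t
  have hR := hL.reg
  have hj' : j ≤ (St S wp d t).K := hj
  have hc : CovG (gSt G W.cov t) (vf wp d) := W.cov
  have h1 := pair_var hL (gSt G W.cov t) (fun b b' => hG b b') hj' hc
  have e1 : (fun z x => lf (vf wp d x) z ^ 2) = fun z x => Lp wp d z x ^ 2 := by
    funext z x; rw [lf_vf]
  have e2 : (fun z x => lf (vf wp d x) z) = Lp wp d := by
    funext z x; rw [lf_vf]
  rw [e1, e2] at h1
  have e3 : ∀ y : X × X, nq (dcf (-1) (St S wp d t).lev j (vf wp d) y) =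
      2 * D0 - 2 * ∑ k, d y.1 k * d y.2 k := by
    intro y
    have e4 : nq (dcf (-1) (St S wp d t).lev j (vf wp d) y) =
        ∑ e, (vf wp d y.1 e - vf wp d y.2 e) ^ 2 := by
      unfold nq dcf
      rw [Fintype.sum_sum_type]
      simp only [Sum.elim_inl, Sum.elim_inr]
      have e5 : ∀ e, (if (St S wp d t).lev e ≤ j then (0 : ℝ) else -1 * vf wp d y.2 e) ^ 2 =
          0 := by
        intro e
        by_cases he : (St S wp d t).lev e ≤ j
        · rw [if_pos he]; ring
        · rw [if_neg he, vf_lev (lev := S.lev) W.lev (by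
            intro h6; apply he; show S.lev e ≤ j; omega)]
          ring
      simp only [e5, Finset.sum_const_zero, add_zero]
      refine Finset.sum_congr rfl fun e _ => ?_
      by_cases he : (St S wp d t).lev e ≤ j
      · rw [if_pos he]; ring
      · rw [if_neg he, vf_lev (lev := S.lev) W.lev (by
            intro h6; apply he; show S.lev e ≤ j; omega) y.2]
        ring
    rw [e4]
    have e6 : ∑ e, (vf wp d y.1 e - vf wp d y.2 e) ^ 2 = nq (vf wp d y.1) +
        nq (vf wp d y.2) - 2 * ∑ e, vf wp d y.1 e * vf wp d y.2 e := by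
      unfold nq
      rw [Finset.mul_sum, ← Finset.sum_add_distrib, ← Finset.sum_sub_distrib]
      exact Finset.sum_congr rfl fun e _ => by ring
    rw [e6, nq_vf W.inj, nq_vf W.inj, dot_vv W.inj, W.nrm, W.nrm]
    ring
  simp only [e3] at h1
  have hRd := dbl_reg hR hj'
  have e7 : (dbl (St S wp d t) j).Ex (fun _ (y : X × X) => 2 * D0 -
      2 * ∑ k, d y.1 k * d y.2 k) = 2 * D0 - 2 * rl (St S wp d t) d j := by
    rw [hRd.Ex_sub (fun _ => EG.const (2 * D0))
      (Nh.snd fun y : X × X => 2 * ∑ k, d y.1 k * d y.2 k), hRd.Ex_const, Sy.Ex_const_mul]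
    congr 2
    have e8 : (fun (_ : ι ⊕ ι → ℝ) (y : X × X) => ∑ k, d y.1 k * d y.2 k) =
        fun z y => ∑ k, (fun (_ : ι → ℝ) x => d x k) (z1 z) y.1 *
          (fun (_ : ι → ℝ) x => d x k) (z2 (St S wp d t).lev j z) y.2 := rfl
    rw [e8, hRd.Ex_sum Finset.univ (f := fun k z (y : X × X) =>
      (fun (_ : ι → ℝ) x => d x k) (z1 z) y.1 *
          (fun (_ : ι → ℝ) x => d x k) (z2 (St S wp d t).lev j z) y.2)
      (fun k _ => Nh.snd fun y : X × X => d y.1 k * d y.2 k)]
    unfold rl
    rw [hR.Ex_sum Finset.univ (f := fun k z _ => (St S wp d t).T j (fun _ x => d x k) z ^ 2)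
      (fun k _ => Nh.fst ((hR.eg_T hj' (Nh.snd fun x => d x k)).pow 2))]
    refine Finset.sum_congr rfl fun k _ => ?_
    rw [dbl_Ex hR hj' (A := fun _ x => d x k) (B := fun _ x => d x k) (Nh.snd _) (Nh.snd _)]
    congr 1
    funext z _
    rw [sq]
  rw [e7] at h1
  linarith

end wf

end Vale.Agent.P146.H186
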