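import Vale.Agent.P146.H186.Rr

/-!
# The response of a white field decreases: `m_p (D0 - Var V) ≤ - t χ_p'(t)` (helper186)
-/

open MeasureTheory ProbabilityTheory Filter Topology

namespace Vale.Agent.P146.H186

open Vale.Agent.P157.Lv Vale.Agent.P157.Lv.Sy Vale.Agent.P146.H425 Vale.Agent.P146.H784
open Vale.Agent.P146.H94 (sg Gg sg_sg sg_mix int_sg lg_inv)

set_option linter.unusedSectionVars false

variable {ι X ν : Type} [Fintype ι] [DecidableEq ι] [Fintype X] [DecidableEq X] [Nonempty X]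
  [Fintype ν] {S : Sy ι X} {a : X → ι → ℝ} {c : X → ℝ} {c0 : ℝ} {x0 : X} {l p : ℕ}
  {wp : ν → ι} {d : X → ν → ℝ} {D0 : ℝ}

/-- the variance of the field energy -/
noncomputable def VarL (S : Sy ι X) (wp : ν → ι) (d : X → ν → ℝ) : ℝ :=
  S.Ex (fun z x => Lp wp d z x ^ 2) - S.Ex (Lp wp d) ^ 2

/-- the second derivative of the free energy in the amplitude -/
noncomputable def F2 (S : Sy ι X) (wp : ν → ι) (d : X → ν → ℝ) : ℝ :=
  ∑ j ∈ Finset.range (S.K + 1), (S.m (j + 1) - S.m j) *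
    (S.Ex (fun z x => Lp wp d z x ^ 2) - S.Ex (fun z _ => S.T j (Lp wp d) z ^ 2))

/-- the first derivative of the free energy in the amplitude -/
theorem deriv_fe (h : LinS S a c) (t : ℝ) :
    HasDerivAt (fun t => (St S wp d t).fe) ((St S wp d t).Ex (Lp wp d)) t := by
  have hS := h.reg
  have hV := lip_Lp wp d
  have hVn := nh_Lp wp d
  have hR := fun t => pt_reg hS hV t
  have h0 : (0 : ℕ) ≤ S.K := Nat.zero_le _
  have e1 : (St S wp d t).Ex (Lp wp d) = ∫ z, (St S wp d t).T 0 (Lp wp d) z ∂(gI ι) := by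
    exact (hR t).Ex_eq_T hVn
  rw [e1]
  unfold Sy.fe
  refine hasDerivAt_int (F := fun t z => (St S wp d t).lg 0 z)
    (F' := fun t z => (St S wp d t).T 0 (Lp wp d) z)
    (fun t z => deriv_lg hS hV 0 h0 t z) (fun t => ((hR t).lip_lg h0).eg)
    ((hR t).eg_T h0 hVn) (B := fun z => 2 * Bd S (Lp wp d) (|t| + 1 + 1) 0 z)
    ((lip_Bd hS hV _ h0).eg.const_mul 2) fun s hs z => ?_
  have hs' : |s| ≤ |t| + 1 := by
    have := abs_add_le (s - t) t
    rw [sub_add_cancel] at this
    linarith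
  exact bd_T hS hV h0 hs' z

/-- the second derivative of the free energy in the amplitude -/
theorem deriv_Lp (h : LinS S a c) (t : ℝ) :
    HasDerivAt (fun t => (St S wp d t).Ex (Lp wp d)) (F2 (St S wp d t) wp d) t := by
  have h1 := deriv_Ex h.reg (lip_Lp wp d) (nh_Lp wp d) t
  rw [sc_cov h.reg (lip_Lp wp d) (nh_Lp wp d)] at h1
  refine h1.congr_deriv ?_
  unfold F2
  refine Finset.sum_congr rfl fun j _ => ?_
  show (S.m (j + 1) - S.m j) * ((St S wp d t).Ex (fun z x => Lp wp d z x * Lp wp d z x) -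
    (St S wp d t).Ex (fun z _ => (St S wp d t).T j (Lp wp d) z *
      (St S wp d t).T j (Lp wp d) z)) = (S.m (j + 1) - S.m j) * _
  congr 2
  · congr 1
    funext z x
    rw [sq]
  · congr 1
    funext z _
    rw [sq]

section wf

variable {G : Gg a x0} (W : WF S a G p wp d D0)

include W

/-- `Φ'' ≤ m_p Var V + χ_p - m_p D0` -/
theorem F2_le (h : LinS S a (fun _ => c0)) (hG : Sw G) (t : ℝ) :
    F2 (St S wp d t) wp d ≤ S.m p * (VarL (St S wp d t) wp d - D0) +
      chi (St S wp d t) d D0 p := by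
  have hS := h.reg
  have hpK := W.pK
  unfold F2
  have hsplit : Finset.range ((St S wp d t).K + 1) =
      Finset.range p ∪ Finset.Ico p (S.K + 1) := by
    ext i
    simp only [Finset.mem_range, Finset.mem_union, Finset.mem_Ico]
    show i < S.K + 1 ↔ _
    omega
  have hdisj : Disjoint (Finset.range p) (Finset.Ico p (S.K + 1)) := by
    rw [Finset.disjoint_left]
    intro i hi hi'
    rw [Finset.mem_range] at hi
    rw [Finset.mem_Ico] at hi'
    omega
  rw [hsplit, Finset.sum_union hdisj]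
  have hb : ∑ j ∈ Finset.range p, ((St S wp d t).m (j + 1) - (St S wp d t).m j) *
      ((St S wp d t).Ex (fun z x => Lp wp d z x ^ 2) -
        (St S wp d t).Ex (fun z _ => (St S wp d t).T j (Lp wp d) z ^ 2)) ≤
      S.m p * VarL (St S wp d t) wp d := by
    rw [← sum_q_below hS (p := p) (by omega), Finset.sum_mul]
    refine Finset.sum_le_sum fun j hj => ?_
    have hj' : j ≤ S.K := by rw [Finset.mem_range] at hj; omega
    exact mul_le_mul_of_nonneg_left (below W h t hj') (q_nonneg hS hj')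
  have ha : ∑ j ∈ Finset.Ico p (S.K + 1), ((St S wp d t).m (j + 1) - (St S wp d t).m j) *
      ((St S wp d t).Ex (fun z x => Lp wp d z x ^ 2) -
        (St S wp d t).Ex (fun z _ => (St S wp d t).T j (Lp wp d) z ^ 2)) ≤
      (1 - S.m p) * D0 - ∑ j ∈ Finset.Ico p (S.K + 1), (S.m (j + 1) - S.m j) *
        rl (St S wp d t) d j := by
    rw [← sum_q_from hS (p := p) (by omega), Finset.sum_mul, ← Finset.sum_sub_distrib]
    refine Finset.sum_le_sum fun j hj => ?_
    have hj' : j ≤ S.K := by rw [Finset.mem_Ico] at hj; omega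
    have hpj : p ≤ j := by rw [Finset.mem_Ico] at hj; omega
    have := mul_le_mul_of_nonneg_left (above W h hG t hpj hj') (q_nonneg hS hj')
    refine this.trans (le_of_eq ?_)
    ring
  have hchi : chi (St S wp d t) d D0 p = D0 - ∑ j ∈ Finset.Ico p (S.K + 1),
      (S.m (j + 1) - S.m j) * rl (St S wp d t) d j := rfl
  rw [hchi]
  linarith

/-- **the derivative of the response in the amplitude** -/
theorem deriv_chi (h : LinS S a (fun _ => c0)) (hG : Sw G) {t : ℝ} (ht : 0 < t) :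
    ∃ χ' : ℝ, HasDerivAt (fun t => chi (St S wp d t) d D0 p) χ' t ∧
      S.m p * (D0 - VarL (St S wp d t) wp d) ≤ -(t * χ') := by
  have h1 := deriv_Lp (wp := wp) (d := d) h t
  have e1 : ∀ s, (St S wp d s).Ex (Lp wp d) = s * chi (St S wp d s) d D0 p :=
    fun s => Ex_Lp W h s
  have h2 : HasDerivAt (fun s => (St S wp d s).Ex (Lp wp d) / s)
      ((F2 (St S wp d t) wp d * t - (St S wp d t).Ex (Lp wp d) * 1) / t ^ 2) t :=
    h1.div (hasDerivAt_id t) ht.ne'
  have h3 : (fun s => (St S wp d s).Ex (Lp wp d) / s) =ᶠ[𝓝 t]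
      fun s => chi (St S wp d s) d D0 p := by
    filter_upwards [eventually_ne_nhds ht.ne'] with s hs
    rw [e1]
    field_simp
  refine ⟨_, h2.congr_of_eventuallyEq h3.symm, ?_⟩
  have h4 := F2_le W h hG t
  rw [e1 t]
  have e2 : t * ((F2 (St S wp d t) wp d * t - t * chi (St S wp d t) d D0 p * 1) / t ^ 2) =
      F2 (St S wp d t) wp d - chi (St S wp d t) d D0 p := by
    field_simp
  rw [e2]
  linarith

/-- the variance of the field energy is at most `D0` -/
theorem VarL_le (h : LinS S a (fun _ => c0)) (t : ℝ) : VarL (St S wp d t) wp d ≤ D0 := by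
  have hL := lin_St (wp := wp) (d := d) h t
  have hR := hL.reg
  have hc : CovG (gSt G W.cov t) (vf wp d) := W.cov
  have h1 := Ex_var hL (v := vf wp d) (c0 := (St S wp d t).Ex (fun z x => lf (vf wp d x) z))
    (fun x => mU_all hL (gSt G W.cov t) hc x)
  have e0 : (fun z x => lf (vf wp d x) z) = Lp wp d := by
    funext z x; rw [lf_vf]
  have e1 : (fun (_ : ι → ℝ) x => nq (vf wp d x)) = fun _ _ => D0 := by
    funext _ x
    rw [nq_vf W.inj, W.nrm]
  rw [e1, hR.Ex_const] at h1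
  obtain ⟨m, hm⟩ : ∃ m, m = (St S wp d t).Ex (Lp wp d) := ⟨_, rfl⟩
  have e2 : (fun z x => (lf (vf wp d x) z - (St S wp d t).Ex
      (fun z x => lf (vf wp d x) z)) ^ 2) =
      fun z x => (Lp wp d z x ^ 2 - 2 * m * Lp wp d z x) + m ^ 2 := by
    funext z x
    rw [e0, lf_vf, ← hm]
    ring
  rw [e2, hR.Ex_add (Nh.sub (Nh.pow (nh_Lp wp d) 2) (Nh.const_mul _ (nh_Lp wp d)))
    (fun _ => EG.const _), hR.Ex_sub (Nh.pow (nh_Lp wp d) 2) (Nh.const_mul _ (nh_Lp wp d)),
    Sy.Ex_const_mul, hR.Ex_const, ← hm] at h1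
  unfold VarL
  rw [← hm]
  linarith

/-- **the same in the variance `w = t²`**: `Φ' = χ/2` and
`m_p (D0 - Var V) / w ≤ - 2 dχ/dw` -/
theorem deriv_chi_w (h : LinS S a (fun _ => c0)) (hG : Sw G) {w : ℝ} (hw : 0 < w) :
    HasDerivAt (fun w => (St S wp d √w).fe) (chi (St S wp d √w) d D0 p / 2) w ∧
    ∃ χ' : ℝ, HasDerivAt (fun w => chi (St S wp d √w) d D0 p) χ' w ∧
      S.m p * (D0 - VarL (St S wp d √w) wp d) ≤ -(2 * w * χ') := by
  have hs : 0 < √w := Real.sqrt_pos.2 hw
  have hd : HasDerivAt (fun w => √w) (1 / (2 * √w)) w := Real.hasDerivAt_sqrt hw.ne'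
  constructor
  · have h1 := (deriv_fe (wp := wp) (d := d) h √w).comp w hd
    refine h1.congr_deriv ?_
    rw [Ex_Lp W h]
    field_simp
  · obtain ⟨χ', h1, h2⟩ := deriv_chi W h hG hs
    refine ⟨χ' * (1 / (2 * √w)), h1.comp w hd, h2.trans (le_of_eq ?_)⟩
    have e : 2 * w * (χ' * (1 / (2 * √w))) = √w * χ' := by
      have e2 : w = √w * √w := (Real.mul_self_sqrt hw.le).symm
      field_simp
      rw [Real.sq_sqrt hw.le]
      ring
    rw [e]

end wf

end Vale.Agent.P146.H186
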