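import Vale.Agent.P146.H186.SkI
import Vale.Agent.P146.H785.Ibp

/-!
# The vector `T_l (d_j X)` (helper186)

A white field of the level `p > l` with the amplitude `t`; `X = D0 - ∑_{m ≥ p} q_m R_m`,
`R_m = ∑_k d_k T_m d_k`. Conditional integration by parts gives `t T_l (d_j X) = T_l (d_j V)`, hence
`∑_j E (T_l (d_j X))² = χ² r_l + 2 χ Cov (R_l, X) + rest`, `0 ≤ rest ≤ 4 √Θ_l D0 / t²`.
-/

open MeasureTheory ProbabilityTheory Filter Topology

namespace Vale.Agent.P146.H186

open Vale.Agent.P157.Lv Vale.Agent.P157.Lv.Sy Vale.Agent.P146.H425 Vale.Agent.P146.H784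
open Vale.Agent.P146.H94 (sg Gg sg_sg sg_mix int_sg lg_inv)

set_option linter.unusedSectionVars false

variable {ι X ν : Type} [Fintype ι] [DecidableEq ι] [Fintype X] [DecidableEq X] [Nonempty X]
  [Fintype ν] {S : Sy ι X} {a : X → ι → ℝ} {c : X → ℝ} {c0 : ℝ} {x0 : X} {l p : ℕ}
  {wp : ν → ι} {d : X → ν → ℝ} {D0 : ℝ}

/-- the overlap with the magnetization of the level `m` -/
noncomputable def Rm (S : Sy ι X) (d : X → ν → ℝ) (m : ℕ) (z : ι → ℝ) (x : X) : ℝ :=
  ∑ k, d x k * S.T m (fun _ x => d x k) z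

/-- `X_p = D0 - ∑_{m ≥ p} q_m R_m` -/
noncomputable def Xp (S : Sy ι X) (d : X → ν → ℝ) (D0 : ℝ) (p : ℕ) (z : ι → ℝ) (x : X) : ℝ :=
  D0 - ∑ m ∈ Finset.Ico p (S.K + 1), (S.m (m + 1) - S.m m) * Rm S d m z x

/-- the mean of the squared overlap of two replicas which split at the level `l` -/
noncomputable def Th (S : Sy ι X) (d : X → ν → ℝ) (l : ℕ) : ℝ :=
  (dbl S l).Ex (fun _ y => (∑ k, d y.1 k * d y.2 k) ^ 2)

lemma nh_d (d : X → ν → ℝ) (k : ν) : Nh fun (_ : ι → ℝ) x => d x k := Nh.snd fun x => d x k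

lemma nh_Rm (hS : S.Reg) {m : ℕ} (hm : m ≤ S.K) (d : X → ν → ℝ) : Nh (Rm S d m) :=
  Nh.sum _ fun k _ => Nh.mul (nh_d d k) (Nh.fst (hS.eg_T hm (nh_d d k)))

lemma nh_Xp (hS : S.Reg) (d : X → ν → ℝ) (D0 : ℝ) (p : ℕ) : Nh (Xp S d D0 p) :=
  Nh.sub (fun _ => EG.const D0) (Nh.sum _ fun m hm => Nh.const_mul _ (nh_Rm hS (by
    rw [Finset.mem_Ico] at hm; omega) d))

/-- `E R_m = r_m` -/
lemma Ex_Rm (hS : S.Reg) {m : ℕ} (hm : m ≤ S.K) (d : X → ν → ℝ) :
    S.Ex (Rm S d m) = rl S d m := by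
  unfold Rm rl
  rw [hS.Ex_sum Finset.univ (f := fun k z x => d x k * S.T m (fun _ x => d x k) z)
    (fun k _ => Nh.mul (nh_d d k) (Nh.fst (hS.eg_T hm (nh_d d k)))),
    hS.Ex_sum Finset.univ (f := fun k z _ => S.T m (fun _ x => d x k) z ^ 2)
    (fun k _ => Nh.fst ((hS.eg_T hm (nh_d d k)).pow 2))]
  refine Finset.sum_congr rfl fun k _ => ?_
  have e4 := hS.Ex_mul_T hm (S.dep_T m (fun _ x => d x k)) (hS.eg_T hm (nh_d d k)) (nh_d d k)
  have e5 : (fun z x => d x k * S.T m (fun _ x => d x k) z) =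
      fun z x => S.T m (fun _ x => d x k) z * d x k := by
    funext z x; ring
  rw [e5, ← e4]
  congr 1
  funext z _
  rw [sq]

/-- `E (R_l h) = ∑_k E (T_l d_k T_l (d_k h))` -/
lemma Ex_Rm_mul (hS : S.Reg) (hl : l ≤ S.K) (d : X → ν → ℝ) {h : (ι → ℝ) → X → ℝ} (hh : Nh h) :
    S.Ex (fun z x => Rm S d l z x * h z x) = ∑ k, S.Ex (fun z _ =>
      S.T l (fun _ x => d x k) z * S.T l (fun z x => d x k * h z x) z) := by
  have n1 : ∀ k, Nh fun z x => S.T l (fun _ x => d x k) z * (d x k * h z x) := fun k =>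
    Nh.mul (Nh.fst (hS.eg_T hl (nh_d d k))) (Nh.mul (nh_d d k) hh)
  have e1 : (fun z x => Rm S d l z x * h z x) =
      fun z x => ∑ k, S.T l (fun _ x => d x k) z * (d x k * h z x) := by
    funext z x
    unfold Rm
    rw [Finset.sum_mul]
    exact Finset.sum_congr rfl fun k _ => by ring
  rw [e1, hS.Ex_sum Finset.univ (fun k _ => n1 k)]
  refine Finset.sum_congr rfl fun k _ => ?_
  exact (hS.Ex_mul_T hl (S.dep_T l (fun _ x => d x k)) (hS.eg_T hl (nh_d d k))
    (Nh.mul (nh_d d k) hh)).symm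

section wf

variable {G : Gg a x0} (W : WF S a G p wp d D0)

include W

/-- **conditional integration by parts**: `T_l (d_j V) = t T_l (d_j X)` for `l < p` -/
theorem T_dL (h : LinS S a (fun _ => c0)) (t : ℝ) (hlp : l < p) (j : ν) (z : ι → ℝ) :
    (St S wp d t).T l (fun z x => d x j * Lp wp d z x) z =
      t * (St S wp d t).T l (fun z x => d x j * Xp (St S wp d t) d D0 p z x) z := by
  have hL := lin_St (wp := wp) (d := d) h t
  have hR := hL.reg
  have hD := H93.regD hL
  have hpK := W.pK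
  have hl' : l ≤ (St S wp d t).K := by show l ≤ S.K; omega
  obtain ⟨T, hT⟩ : ∃ T : Sy ι X, T = St S wp d t := ⟨_, rfl⟩
  have hc : ∀ x k, a x (wp k) + t * vf wp d x (wp k) = t * d x k := by
    intro x k
    rw [W.zero, vf_wp W.inj, zero_add]
  have e0 : (fun z x => d x j * Lp wp d z x) = fun z x => ∑ k, z (wp k) * (d x k * d x j) := by
    funext z x
    unfold Lp
    rw [Finset.mul_sum]
    exact Finset.sum_congr rfl fun k _ => by ring
  have ndd : ∀ k, Nh fun (_ : ι → ℝ) x => d x k * d x j := fun k =>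
    Nh.snd fun x => d x k * d x j
  rw [e0, hR.T_sum hl' Finset.univ (f := fun k z x => z (wp k) * (d x k * d x j))
    (fun k _ => Nh.mul (Nh.fst (EG.coord (wp k))) (ndd k))]
  have e1 : ∀ k, (St S wp d t).T l (fun z x => z (wp k) * (d x k * d x j)) z =
      (St S wp d t).T l (fun z x => t * (d x j * (d x k ^ 2 -
        ∑ m ∈ Finset.Ico p (S.K + 1), (S.m (m + 1) - S.m m) *
          (d x k * (St S wp d t).T m (fun _ x => d x k) z)))) z := by
    intro k
    have hlev : (St S wp d t).lev (wp k) = p := W.lev k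
    have h1 := H785.T_ibp hD hl' (e := wp k) (by rw [hlev]; exact hlp)
      (h := fun _ x => d x k * d x j) (h' := fun _ _ => 0) (fun x => PD.const _) (ndd k)
      (fun _ => EG.const 0) z
    rw [h1]
    congr 1
    funext z x
    simp only [hc, hlev]
    have e3 : ∀ m, (St S wp d t).T m (fun _ x => t * d x k) z =
        t * (St S wp d t).T m (fun _ x => d x k) z := fun m =>
      T_const_mul (St S wp d t) m t (fun _ x => d x k) z
    simp only [e3]
    have e4 : ∑ m ∈ Finset.Ico p ((St S wp d t).K + 1), (St S wp d t).p m *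
        (t * (St S wp d t).T m (fun _ x => d x k) z) =
        t * ∑ m ∈ Finset.Ico p (S.K + 1), (S.m (m + 1) - S.m m) *
          (St S wp d t).T m (fun _ x => d x k) z := by
      rw [Finset.mul_sum]
      refine Finset.sum_congr rfl fun m _ => ?_
      show (S.m (m + 1) - S.m m) * (t * (St S wp d t).T m (fun _ x => d x k) z) = _
      ring
    have e5 : ∑ m ∈ Finset.Ico p (S.K + 1), (S.m (m + 1) - S.m m) *
        (d x k * (St S wp d t).T m (fun _ x => d x k) z) =
        d x k * ∑ m ∈ Finset.Ico p (S.K + 1), (S.m (m + 1) - S.m m) *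
          (St S wp d t).T m (fun _ x => d x k) z := by
      rw [Finset.mul_sum]
      exact Finset.sum_congr rfl fun m _ => by ring
    rw [e4, e5]
    ring
  have n2 : ∀ k, Nh fun z x => t * (d x j * (d x k ^ 2 -
        ∑ m ∈ Finset.Ico p (S.K + 1), (S.m (m + 1) - S.m m) *
          (d x k * (St S wp d t).T m (fun _ x => d x k) z))) := fun k =>
    Nh.const_mul _ (Nh.mul (nh_d d j) (Nh.sub (Nh.pow (nh_d d k) 2) (Nh.sum _ fun m hm =>
      Nh.const_mul _ (Nh.mul (nh_d d k) (Nh.fst (hR.eg_T (by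
        rw [Finset.mem_Ico] at hm; show m ≤ S.K; omega) (nh_d d k)))))))
  simp only [e1]
  rw [← hR.T_sum hl' Finset.univ (fun k _ => n2 k), ← T_const_mul]
  congr 1
  funext z x
  rw [← Finset.mul_sum, ← Finset.mul_sum, Finset.sum_sub_distrib, W.nrm]
  congr 2
  unfold Xp
  congr 1
  rw [Finset.sum_comm]
  refine Finset.sum_congr rfl fun m _ => ?_
  unfold Rm
  rw [← Finset.mul_sum]
  rfl

/-- the mean of `X_p` is `χ_p` -/
lemma Ex_Xp (h : LinS S a (fun _ => c0)) (t : ℝ) :
    (St S wp d t).Ex (Xp (St S wp d t) d D0 p) = chi (St S wp d t) d D0 p := by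
  have hR := (lin_St (wp := wp) (d := d) h t).reg
  have n1 : ∀ m ∈ Finset.Ico p ((St S wp d t).K + 1), Nh fun z x =>
      ((St S wp d t).m (m + 1) - (St S wp d t).m m) * Rm (St S wp d t) d m z x := fun m hm =>
    Nh.const_mul _ (nh_Rm hR (by rw [Finset.mem_Ico] at hm; omega) d)
  unfold Xp chi
  rw [hR.Ex_sub (fun _ => EG.const D0) (Nh.sum _ n1), hR.Ex_const, hR.Ex_sum _ n1]
  congr 1
  refine Finset.sum_congr rfl fun m hm => ?_
  rw [Sy.Ex_const_mul, Ex_Rm hR (by rw [Finset.mem_Ico] at hm; omega)]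

/-- the fourth moment of the field energy -/
theorem four_Lp (h : LinS S a (fun _ => c0)) (t : ℝ) (hD0 : 0 < D0) :
    (St S wp d t).Ex (fun z x => (Lp wp d z x - t * chi (St S wp d t) d D0 p) ^ 4) ≤
      12 * D0 ^ 2 := by
  have hL := lin_St (wp := wp) (d := d) h t
  have hc : CovG (gSt G W.cov t) (vf wp d) := W.cov
  have e0 : (fun z x => lf (vf wp d x) z) = Lp wp d := by
    funext z x; rw [lf_vf]
  have hm : ∀ x, mU (Ux (St S wp d t) x) (lf (vf wp d x)) =
      t * chi (St S wp d t) d D0 p := by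
    intro x
    rw [mU_all hL (gSt G W.cov t) hc x, e0, Ex_Lp W h]
  have h1 := Ex_four hL (v := vf wp d) hD0 (fun x => by rw [nq_vf W.inj, W.nrm]) hm
  refine le_trans (le_of_eq ?_) h1
  congr 1
  funext z x
  rw [lf_vf]

/-- **STEP 3**: the square of the vector `T_l (d_j X_p)` -/
theorem step3 (h : LinS S a (fun _ => c0)) {t : ℝ} (ht : 0 < t) (hD0 : 0 < D0) (hlp : l < p) :
    ∃ e : ℝ, 0 ≤ e ∧ e ≤ 4 * (√(Th (St S wp d t) d l) * D0 / t ^ 2) ∧
    ∑ j, (St S wp d t).Ex (fun z _ =>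
      (St S wp d t).T l (fun z x => d x j * Xp (St S wp d t) d D0 p z x) z ^ 2) =
    chi (St S wp d t) d D0 p ^ 2 * rl (St S wp d t) d l +
      2 * chi (St S wp d t) d D0 p * ((St S wp d t).Ex (fun z x =>
        Rm (St S wp d t) d l z x * Xp (St S wp d t) d D0 p z x) -
        rl (St S wp d t) d l * chi (St S wp d t) d D0 p) + e := by
  have hL := lin_St (wp := wp) (d := d) h t
  have hR := hL.reg
  have hpK := W.pK
  have hl' : l ≤ (St S wp d t).K := by show l ≤ S.K; omega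
  obtain ⟨T, hT⟩ : ∃ T : Sy ι X, T = St S wp d t := ⟨_, rfl⟩
  obtain ⟨χ, hχ⟩ : ∃ χ, χ = chi (St S wp d t) d D0 p := ⟨_, rfl⟩
  have hTdL := fun j z => T_dL W h t hlp j z
  have hfour := four_Lp W h t hD0
  rw [← hχ] at hfour ⊢
  rw [← hT] at hR hl' hTdL hfour ⊢
  -- the centered field
  let Y : (ι → ℝ) → X → ℝ := fun z x => 1 / t * (Lp wp d z x - t * χ)
  have nY : Nh Y := Nh.const_mul _ (Nh.sub (nh_Lp wp d) (fun _ => EG.const _))
  have nX : Nh (Xp T d D0 p) := nh_Xp hR d D0 p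
  have eY : ∀ j z, T.T l (fun z x => d x j * Xp T d D0 p z x) z =
      χ * T.T l (fun _ x => d x j) z + T.T l (fun z x => d x j * Y z x) z := by
    intro j z
    have e1 : (fun z x => d x j * Y z x) =
        fun z x => 1 / t * (d x j * Lp wp d z x) - χ * d x j := by
      funext z x
      simp only [Y]
      field_simp
    rw [e1, hR.T_sub hl' (Nh.const_mul _ (Nh.mul (nh_d d j) (nh_Lp wp d)))
      (Nh.const_mul _ (nh_d d j)), T_const_mul, T_const_mul, hTdL]
    field_simp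
    ring
  have nT : ∀ j, EG (T.T l fun _ x => d x j) := fun j => hR.eg_T hl' (nh_d d j)
  have nTY : ∀ j, EG (T.T l fun z x => d x j * Y z x) := fun j =>
    hR.eg_T hl' (Nh.mul (nh_d d j) nY)
  refine ⟨∑ j, T.Ex (fun z _ => T.T l (fun z x => d x j * Y z x) z ^ 2), ?_, ?_, ?_⟩
  · refine Finset.sum_nonneg fun j _ => ?_
    have := hR.Ex_mono (f := fun _ _ => (0 : ℝ))
      (g := fun z _ => T.T l (fun z x => d x j * Y z x) z ^ 2) (fun _ => EG.const 0)
      (Nh.fst ((nTY j).pow 2)) (fun z x => sq_nonneg _)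
    rwa [hR.Ex_const] at this
  · -- the pair form
    have hRd := dbl_reg hR hl'
    have e1 : ∑ j, T.Ex (fun z _ => T.T l (fun z x => d x j * Y z x) z ^ 2) =
        (dbl T l).Ex (fun z y => (∑ k, d y.1 k * d y.2 k) *
          (Y (z1 z) y.1 * Y (z2 T.lev l z) y.2)) := by
      have e2 : (fun (z : ι ⊕ ι → ℝ) (y : X × X) => (∑ k, d y.1 k * d y.2 k) *
          (Y (z1 z) y.1 * Y (z2 T.lev l z) y.2)) =
          fun z y => ∑ k, (fun z x => d x k * Y z x) (z1 z) y.1 *
            (fun z x => d x k * Y z x) (z2 T.lev l z) y.2 := by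
        funext z y
        simp only
        rw [Finset.sum_mul]
        exact Finset.sum_congr rfl fun k _ => by ring
      have nk : ∀ k, Nh fun z x => d x k * Y z x := fun k => Nh.mul (nh_d d k) nY
      rw [e2, hRd.Ex_sum Finset.univ (f := fun k (z : ι ⊕ ι → ℝ) (y : X × X) =>
        (fun z x => d x k * Y z x) (z1 z) y.1 * (fun z x => d x k * Y z x) (z2 T.lev l z) y.2)
        (fun k _ => Nh.mul (nh_z1 (nk k)) (nh_z2 (nk k) T.lev l))]
      refine Finset.sum_congr rfl fun k _ => ?_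
      rw [dbl_Ex hR hl' (nk k) (nk k)]
      congr 1
      funext z _
      rw [sq]
    rw [e1]
    have nR : Nh fun (_ : ι ⊕ ι → ℝ) (y : X × X) => ∑ k, d y.1 k * d y.2 k :=
      Nh.snd fun y : X × X => ∑ k, d y.1 k * d y.2 k
    have nYY : Nh fun (z : ι ⊕ ι → ℝ) (y : X × X) => Y (z1 z) y.1 * Y (z2 T.lev l z) y.2 :=
      Nh.mul (nh_z1 nY) (nh_z2 nY T.lev l)
    have h1 := hRd.Ex_cs nR nYY
    have e3 : (dbl T l).Ex (fun z y => (Y (z1 z) y.1 * Y (z2 T.lev l z) y.2) ^ 2) =
        T.Ex (fun z _ => T.T l (fun z x => Y z x ^ 2) z ^ 2) := by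
      have e4 : (fun (z : ι ⊕ ι → ℝ) (y : X × X) => (Y (z1 z) y.1 * Y (z2 T.lev l z) y.2) ^ 2) =
          fun z y => (fun z x => Y z x ^ 2) (z1 z) y.1 *
            (fun z x => Y z x ^ 2) (z2 T.lev l z) y.2 := by
        funext z y
        simp only
        ring
      rw [e4, dbl_Ex hR hl' (Nh.pow nY 2) (Nh.pow nY 2)]
      congr 1
      funext z _
      rw [sq]
    have h2 : T.Ex (fun z _ => T.T l (fun z x => Y z x ^ 2) z ^ 2) ≤
        T.Ex (fun z x => Y z x ^ 4) := by
      rw [← hR.Ex_T hl' (Nh.pow nY 4)]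
      refine hR.Ex_mono (Nh.fst ((hR.eg_T hl' (Nh.pow nY 2)).pow 2))
        (Nh.fst (hR.eg_T hl' (Nh.pow nY 4))) fun z _ => ?_
      have := hR.sq_T_le hl' (Nh.pow nY 2) z
      refine this.trans (le_of_eq ?_)
      congr 1
      funext z x
      ring
    have h3 : T.Ex (fun z x => Y z x ^ 4) ≤ 12 * D0 ^ 2 / t ^ 4 := by
      have e5 : (fun z x => Y z x ^ 4) =
          fun z x => 1 / t ^ 4 * (Lp wp d z x - t * χ) ^ 4 := by
        funext z x
        simp only [Y]
        ring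
      rw [e5, Sy.Ex_const_mul]
      have := mul_le_mul_of_nonneg_left hfour (show 0 ≤ 1 / t ^ 4 by positivity)
      refine this.trans (le_of_eq ?_)
      ring
    obtain ⟨A, hA⟩ : ∃ A, A = (dbl T l).Ex (fun z y => (∑ k, d y.1 k * d y.2 k) *
          (Y (z1 z) y.1 * Y (z2 T.lev l z) y.2)) := ⟨_, rfl⟩
    rw [← hA] at h1 ⊢
    have hTh0 : 0 ≤ Th T d l := by
      have := hRd.Ex_mono (f := fun _ _ => (0 : ℝ))
        (g := fun _ y => (∑ k, d y.1 k * d y.2 k) ^ 2) (fun _ => EG.const 0)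
        (Nh.pow nR 2) (fun z x => sq_nonneg _)
      rwa [hRd.Ex_const] at this
    have h4 : A ^ 2 ≤ (4 * (√(Th T d l) * D0 / t ^ 2)) ^ 2 := by
      have h5 : A ^ 2 ≤ Th T d l * (12 * D0 ^ 2 / t ^ 4) := by
        refine h1.trans ?_
        rw [e3]
        exact mul_le_mul_of_nonneg_left (h2.trans h3) hTh0
      refine h5.trans ?_
      have h6 : (4 * (√(Th T d l) * D0 / t ^ 2)) ^ 2 = 16 * (Th T d l * (D0 ^ 2 / t ^ 4)) := by
        rw [mul_pow, div_pow, mul_pow, Real.sq_sqrt hTh0]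
        ring
      rw [h6]
      have h7 : 0 ≤ Th T d l * (D0 ^ 2 / t ^ 4) := by positivity
      have h8 : Th T d l * (12 * D0 ^ 2 / t ^ 4) = 12 * (Th T d l * (D0 ^ 2 / t ^ 4)) := by ring
      rw [h8]
      linarith
    exact (abs_le_of_sq_le_sq' h4 (by positivity)).2
  · -- the algebra
    have e6 : ∀ j, T.Ex (fun z _ => T.T l (fun z x => d x j * Xp T d D0 p z x) z ^ 2) =
        χ ^ 2 * T.Ex (fun z _ => T.T l (fun _ x => d x j) z ^ 2) +
        2 * χ * T.Ex (fun z _ => T.T l (fun _ x => d x j) z *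
          T.T l (fun z x => d x j * Y z x) z) +
        T.Ex (fun z _ => T.T l (fun z x => d x j * Y z x) z ^ 2) := by
      intro j
      have e7 : (fun (z : ι → ℝ) (_ : X) =>
          T.T l (fun z x => d x j * Xp T d D0 p z x) z ^ 2) =
          fun z x => (χ ^ 2 * (fun (z : ι → ℝ) (_ : X) =>
              T.T l (fun _ x => d x j) z ^ 2) z x +
            2 * χ * (fun (z : ι → ℝ) (_ : X) => T.T l (fun _ x => d x j) z *
              T.T l (fun z x => d x j * Y z x) z) z x) +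
            (fun (z : ι → ℝ) (_ : X) => T.T l (fun z x => d x j * Y z x) z ^ 2) z x := by
        funext z x
        simp only
        rw [eY]
        ring
      have m1 : Nh (X := X) fun z _ => T.T l (fun _ x => d x j) z ^ 2 :=
        Nh.fst ((nT j).pow 2)
      have m2 : Nh (X := X) fun z _ => T.T l (fun _ x => d x j) z *
          T.T l (fun z x => d x j * Y z x) z := Nh.fst ((nT j).mul (nTY j))
      have m3 : Nh (X := X) fun z _ => T.T l (fun z x => d x j * Y z x) z ^ 2 :=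
        Nh.fst ((nTY j).pow 2)
      rw [e7, hR.Ex_add (Nh.add (Nh.const_mul _ m1) (Nh.const_mul _ m2)) m3,
        hR.Ex_add (Nh.const_mul _ m1) (Nh.const_mul _ m2), Sy.Ex_const_mul, Sy.Ex_const_mul]
    simp only [e6]
    rw [Finset.sum_add_distrib, Finset.sum_add_distrib, ← Finset.mul_sum, ← Finset.mul_sum]
    congr 2
    · congr 1
      unfold rl
      rw [hR.Ex_sum Finset.univ (f := fun k z _ => T.T l (fun _ x => d x k) z ^ 2)
        (fun k _ => Nh.fst ((nT k).pow 2))]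
    · congr 1
      rw [← Ex_Rm_mul hR hl' d nY]
      -- `E (R_l Y) = E (R_l X) - r_l χ`
      have e8 : T.Ex (fun z x => Rm T d l z x * Y z x) =
          T.Ex (fun z x => Rm T d l z x * Xp T d D0 p z x) - χ * T.Ex (Rm T d l) := by
        rw [Ex_Rm_mul hR hl' d nY, Ex_Rm_mul hR hl' d nX]
        have e9 : T.Ex (Rm T d l) = ∑ k, T.Ex (fun z _ => T.T l (fun _ x => d x k) z ^ 2) := by
          rw [Ex_Rm hR hl']
          unfold rl
          rw [hR.Ex_sum Finset.univ (f := fun k z _ => T.T l (fun _ x => d x k) z ^ 2)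
            (fun k _ => Nh.fst ((nT k).pow 2))]
        rw [e9, Finset.mul_sum, ← Finset.sum_sub_distrib]
        refine Finset.sum_congr rfl fun k _ => ?_
        have m1 : Nh (X := X) fun z _ => T.T l (fun _ x => d x k) z *
            T.T l (fun z x => d x k * Y z x) z := Nh.fst ((nT k).mul (nTY k))
        have m2 : Nh (X := X) fun z _ => T.T l (fun _ x => d x k) z ^ 2 :=
          Nh.fst ((nT k).pow 2)
        have e10 : (fun (z : ι → ℝ) (_ : X) => T.T l (fun _ x => d x k) z *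
            T.T l (fun z x => d x k * Xp T d D0 p z x) z) =
            fun z x => (fun (z : ι → ℝ) (_ : X) => T.T l (fun _ x => d x k) z *
            T.T l (fun z x => d x k * Y z x) z) z x +
            χ * (fun (z : ι → ℝ) (_ : X) => T.T l (fun _ x => d x k) z ^ 2) z x := by
          funext z x
          simp only
          rw [eY]
          ring
        rw [e10, hR.Ex_add m1 (Nh.const_mul _ m2), Sy.Ex_const_mul]
        ring
      rw [e8, Ex_Rm hR hl']
      ring

end wf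

end Vale.Agent.P146.H186
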