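import Vale.Agent.P146.H186.Rr2
import Vale.Agent.P146.H93.TlSK

/-!
# The SK system with `K` levels: gauge group and white fields (helper186)
-/

open MeasureTheory ProbabilityTheory Filter Topology

namespace Vale.Agent.P146.H186

open Vale.Agent.P157.Lv Vale.Agent.P157.Lv.Sy Vale.Agent.P146.H425
open Vale.Agent.P146.H94 (sg Gg sg_sg sg_mix int_sg lg_inv)
open Vale.Agent.P146.H93 (Cd st am aSK skS Em linS_sk)
open Vale.Agent.P146.H325 (SkS)

set_option linter.unusedSectionVars false

variable {n K : ℕ} {m b w : ℕ → ℝ} {p : ℕ}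

lemma sp_mul (x y : Fin n → ℤˣ) (i : Fin n) : H325.sp (x * y) i = H325.sp x i * H325.sp y i := by
  unfold H325.sp
  simp

lemma st_mul (e : Pair n ⊕ Fin n) (x y : Fin n → ℤˣ) : st e (x * y) = st e x * st e y := by
  rcases e with e | i
  · show H325.sp (x * y) e.1.1 * H325.sp (x * y) e.1.2 = (H325.sp x e.1.1 * H325.sp x e.1.2) *
      (H325.sp y e.1.1 * H325.sp y e.1.2)
    rw [sp_mul, sp_mul]
    ring
  · exact sp_mul x y i

lemma st_sq (e : Pair n ⊕ Fin n) (x : Fin n → ℤˣ) : st e x * st e x = 1 := by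
  rcases e with e | i
  · show (H325.sp x e.1.1 * H325.sp x e.1.2) * (H325.sp x e.1.1 * H325.sp x e.1.2) = 1
    calc (H325.sp x e.1.1 * H325.sp x e.1.2) * (H325.sp x e.1.1 * H325.sp x e.1.2) =
        (H325.sp x e.1.1 * H325.sp x e.1.1) * (H325.sp x e.1.2 * H325.sp x e.1.2) := by ring
      _ = 1 := by rw [H325.sp_mul_self, H325.sp_mul_self, one_mul]
  · exact H325.sp_mul_self x i

/-- the gauge group of the SK system -/
def gSK (n K : ℕ) (b w : ℕ → ℝ) : Gg (aSK n K b w) (1 : Fin n → ℤˣ) where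
  op y := Equiv.mulLeft y
  chi y e := st e.1 y
  sq y e := st_sq e.1 y
  act y x e := by
    show am b w e.1 (e.2 + 1) * st e.1 (y * x) = st e.1 y * (am b w e.1 (e.2 + 1) * st e.1 x)
    rw [st_mul]
    ring
  tr x := mul_one x

lemma sw_SK (n K : ℕ) (b w : ℕ → ℝ) : Sw (gSK n K b w) := by
  intro x x'
  have hu : ∀ y : Fin n → ℤˣ, y * y = 1 := by
    intro y
    funext i
    exact Int.units_mul_self (y i)
  refine ⟨x' * x, ?_, ?_⟩
  · show x' * x * x = x'
    rw [mul_assoc, hu, mul_one]
  · show x' * x * x' = x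
    rw [mul_comm x' x, mul_assoc, hu, mul_one]

/-- the coordinates of the white field of the level `p ∈ [1, K]` -/
def wc (hp : 1 ≤ p ∧ p ≤ K) (i : Fin n) : Cd n K := (Sum.inr i, ⟨p - 1, by omega⟩)

lemma wc_inj (hp : 1 ≤ p ∧ p ≤ K) : Function.Injective (wc (n := n) hp) := by
  intro i j h
  unfold wc at h
  simpa using h

lemma wc_lev (hp : 1 ≤ p ∧ p ≤ K) (i : Fin n) : (skS n K m b w).lev (wc hp i) = p := by
  show (p - 1) + 1 = p
  omega

lemma aSK_wc (hp : 1 ≤ p ∧ p ≤ K) (x : Fin n → ℤˣ) (i : Fin n) :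
    aSK n K b w x (wc hp i) = w p * H325.sp x i := by
  unfold wc
  rw [H93.aSK_inr]
  congr 2
  show (p - 1) + 1 = p
  omega

/-- the amplitudes without the field of the level `p` -/
def w0 (w : ℕ → ℝ) (p : ℕ) : ℕ → ℝ := Function.update w p 0

/-- **the system as a member of the family** -/
theorem St_SK (hp : 1 ≤ p ∧ p ≤ K) (t : ℝ) :
    St (skS n K m b (w0 w p)) (wc hp) (fun x i => H325.sp x i) t =
      skS n K m b (Function.update w p t) := by
  unfold St pt Sy.wH skS
  congr 1
  funext z x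
  show (0 + ∑ e, aSK n K b (w0 w p) x e * z e) + t * Lp (wc hp) (fun x i => H325.sp x i) z x =
    0 + ∑ e, aSK n K b (Function.update w p t) x e * z e
  rw [← lf_vf]
  unfold lf
  rw [Finset.mul_sum, add_assoc, ← Finset.sum_add_distrib]
  congr 1
  refine Finset.sum_congr rfl fun e _ => ?_
  obtain ⟨e1, e2⟩ := e
  by_cases h : ∃ i, (e1, e2) = wc hp i
  · obtain ⟨i, hi⟩ := h
    rw [hi, vf_wp (wc_inj hp), aSK_wc, aSK_wc]
    unfold w0
    rw [Function.update_self, Function.update_self]
    ring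
  · have hv : vf (wc hp) (fun x i => H325.sp x i) x (e1, e2) = 0 := by
      unfold vf
      refine Finset.sum_eq_zero fun k _ => ?_
      rw [if_neg]
      intro h'
      exact h ⟨k, h'⟩
    rw [hv]
    have ha : aSK n K b (w0 w p) x (e1, e2) = aSK n K b (Function.update w p t) x (e1, e2) := by
      rcases e1 with e1 | i
      · rfl
      · rw [H93.aSK_inr, H93.aSK_inr]
        have hne : (e2 : ℕ) + 1 ≠ p := by
          intro h'
          apply h
          refine ⟨i, ?_⟩
          unfold wc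
          congr 1
          apply Fin.ext
          show (e2 : ℕ) = p - 1
          omega
        unfold w0
        rw [Function.update_of_ne hne, Function.update_of_ne hne]
    rw [ha]
    ring

theorem WF_SK (hp : 1 ≤ p ∧ p ≤ K) :
    WF (skS n K m b (w0 w p)) (aSK n K b (w0 w p)) (gSK n K b (w0 w p)) p (wc hp)
      (fun x i => H325.sp x i) (n : ℝ) where
  inj := wc_inj hp
  lev := wc_lev hp
  zero := fun x k => by
    rw [aSK_wc]
    unfold w0
    rw [Function.update_self, zero_mul]
  nrm := fun x => by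
    have e : ∀ k, H325.sp x k ^ 2 = 1 := fun k => H325.sp_sq x k
    simp only [e]
    simp
  cov := fun y x e => by
    show vf (wc hp) (fun x i => H325.sp x i) (y * x) e = st e.1 y * vf (wc hp) (fun x i => H325.sp x i) x e
    unfold vf
    rw [Finset.mul_sum]
    refine Finset.sum_congr rfl fun k _ => ?_
    by_cases h : e = wc hp k
    · rw [if_pos h, if_pos h]
      show H325.sp (y * x) k = st e.1 y * H325.sp x k
      rw [sp_mul]
      have e1 : st e.1 y = H325.sp y k := by rw [h]; rfl
      rw [e1]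
    · rw [if_neg h, if_neg h, mul_zero]
  pK := hp.2

/-- the variance of the field energy `∑_i x_i z_(p,i)` of the level `p` -/
noncomputable def VSK (m b w : ℕ → ℝ) (hp : 1 ≤ p ∧ p ≤ K) : ℝ :=
  VarL (skS n K m b w) (wc hp) (fun x i => H325.sp x i)

/-- the response `χ_p = n - ∑_{l ≥ p} q_l E |T_l x|²` -/
noncomputable def cSK (n K : ℕ) (m b w : ℕ → ℝ) (p : ℕ) : ℝ :=
  chi (skS n K m b w) (fun x i => H325.sp x i) (n : ℝ) p

/-- **the free energy and the response as functions of the variance of the field of the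
level `p`** -/
theorem SK_resp (hm : Em K m) (hp : 1 ≤ p ∧ p ≤ K) {v : ℝ} (hv : 0 < v) :
    HasDerivAt (fun v => (skS n K m b (Function.update w p √v)).fe)
      (cSK n K m b (Function.update w p √v) p / 2) v ∧
    ∃ χ' : ℝ, HasDerivAt (fun v => cSK n K m b (Function.update w p √v) p) χ' v ∧
      m p * (n - VSK (n := n) m b (Function.update w p √v) hp) ≤ -(2 * v * χ') := by
  have h := deriv_chi_w (WF_SK (n := n) (m := m) (b := b) (w := w) hp) (linS_sk hm b (w0 w p))
    (sw_SK n K b (w0 w p)) hv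
  simp only [St_SK hp] at h
  exact h

theorem VSK_le (hm : Em K m) (hp : 1 ≤ p ∧ p ≤ K) : VSK (n := n) m b w hp ≤ n := by
  have h := VarL_le (WF_SK (n := n) (m := m) (b := b) (w := w) hp) (linS_sk hm b (w0 w p)) (w p)
  rw [St_SK hp, Function.update_eq_self] at h
  exact h

end Vale.Agent.P146.H186
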